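import Vale.Agent.P130.H980.Real

/-!
# P130: all consequences of simple Lebesgue spectrum
-/

namespace Vale.Agent.P130.H980

open MeasureTheory Filter Topology
open scoped ENNReal ComplexConjugate

section

variable {X : Type} [MeasurableSpace X] {μ : Measure X} {T : X ≃ᵐ X}

theorem orbit_of_simple (h : SimpleLebesgueSpectrum μ T) :
    ∃ f : X → ℂ, IsOrbitBasis μ T fun _ : Unit => f := by
  classical
  obtain ⟨f, h1, h2, h3, h4⟩ := h
  refine ⟨f, fun _ => ⟨h1, h2⟩, fun i j m n => ?_, fun g g1 g2 g3 => h4 g g1 g2 fun n => g3 () n⟩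
  rw [h3]
  by_cases hmn : m = n
  · rw [if_pos hmn, if_pos ⟨rfl, hmn⟩]
  · rw [if_neg hmn, if_neg fun h' => hmn h'.2]

variable [IsProbabilityMeasure μ]

open Classical in
/-- The isometry on functions. -/
noncomputable def Wf {e : ℤ → X → ℂ} (ho : IsOnb μ e) (φ : Ci → ℂ) : X → ℂ :=
  if hφ : MemLp φ 2 mc then fn (V ho (hφ.toLp φ)) else 0

theorem Wf_eq {e : ℤ → X → ℂ} (ho : IsOnb μ e) {φ : Ci → ℂ} (hφ : MemLp φ 2 mc) :
    Wf ho φ = fn (V ho (hφ.toLp φ)) := dif_pos hφ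

/-- **The spectral isomorphism.** -/
theorem equiv_of (hT : MeasurePreserving T μ μ) (h : SimpleLebesgueSpectrum μ T) :
    EquivMulW μ T := by
  obtain ⟨f, hf⟩ := orbit_of_simple h
  have ho := onb1 hT hf
  refine ⟨mc, Wf ho, rfl, fun φ hφ => ?_, fun φ ψ hφ hψ a b => ?_, fun g hg h0 => ?_⟩
  · have h1 : MemLp (fun t => (fourier 1 t : ℂ) * φ t) 2 mc := memF 1 hφ
    rw [Wf_eq ho hφ, Wf_eq ho h1]
    refine ⟨fn_mem _, fn_mean _, ?_, ?_⟩
    · have e1 : ‖V ho (hφ.toLp φ)‖ = ‖hφ.toLp φ‖ := (V ho).norm_map _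
      have e2 : ‖((V ho (hφ.toLp φ) : E0 μ) : Lp ℂ 2 μ)‖ = ‖hφ.toLp φ‖ := e1
      rw [Lp.norm_def, Lp.norm_toLp] at e2
      exact (ENNReal.toReal_eq_toReal_iff' (Lp.eLpNorm_ne_top _) hφ.2.ne).1 e2
    · have e1 : (memF 1 (Lp.memLp (hφ.toLp φ))).toLp _ = h1.toLp _ := by
        refine Lp.ext ?_
        filter_upwards [(memF 1 (Lp.memLp (hφ.toLp φ))).coeFn_toLp, h1.coeFn_toLp,
          hφ.coeFn_toLp] with t a1 a2 a3
        rw [a1, a2, a3]
      have e2 := V_shift hT hf (hφ.toLp φ) 1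
      rw [e1] at e2
      have e3 : fn (V ho (h1.toLp _)) =ᵐ[μ] fun x => fn (V ho (hφ.toLp φ)) (zp T 1 x) := by
        rw [e2]
        exact fn_mk0 _ _
      filter_upwards [e3] with x hx
      have e4 : zp T 1 x = T x := by
        have := congrFun (zp_nat T 1) x
        exact this
      rw [e4] at hx
      exact hx
  · have h1 : MemLp (fun t => a * φ t + b * ψ t) 2 mc := (hφ.const_mul a).add (hψ.const_mul b)
    have e1 : h1.toLp _ = a • hφ.toLp φ + b • hψ.toLp ψ := by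
      refine Lp.ext ?_
      filter_upwards [h1.coeFn_toLp, Lp.coeFn_add (a • hφ.toLp φ) (b • hψ.toLp ψ),
        Lp.coeFn_smul a (hφ.toLp φ), Lp.coeFn_smul b (hψ.toLp ψ), hφ.coeFn_toLp,
        hψ.coeFn_toLp] with t a1 a2 a3 a4 a5 a6
      rw [a1, a2, Pi.add_apply, a3, a4, Pi.smul_apply, Pi.smul_apply, a5, a6]
      rfl
    rw [Wf_eq ho hφ, Wf_eq ho hψ, Wf_eq ho h1, e1, map_add, map_smul, map_smul]
    show ((a • (V ho (hφ.toLp φ) : Lp ℂ 2 μ) + b • (V ho (hψ.toLp ψ) : Lp ℂ 2 μ) : Lp ℂ 2 μ) :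
      X → ℂ) =ᵐ[μ] _
    filter_upwards [Lp.coeFn_add (a • (V ho (hφ.toLp φ) : Lp ℂ 2 μ))
      (b • (V ho (hψ.toLp ψ) : Lp ℂ 2 μ)), Lp.coeFn_smul a (V ho (hφ.toLp φ) : Lp ℂ 2 μ),
      Lp.coeFn_smul b (V ho (hψ.toLp ψ) : Lp ℂ 2 μ)] with x a2 a3 a4
    rw [a2, Pi.add_apply, a3, a4]
    rfl
  · refine ⟨((V ho).symm (mk0 hg h0) : Lp ℂ 2 mc), Lp.memLp _, ?_⟩
    rw [Wf_eq ho (Lp.memLp _), Lp.toLp_coeFn, LinearIsometryEquiv.apply_symm_apply]
    exact fn_mk0 _ _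

/-- **The real basis function.** -/
theorem real_of (hT : MeasurePreserving T μ μ) (h : SimpleLebesgueSpectrum μ T) :
    ∃ f : X → ℝ, IsRealOrbitBasis μ T f := by
  classical
  obtain ⟨f, hf⟩ := orbit_of_simple h
  obtain ⟨F, hF, h1, h2, h3⟩ := exists_real hT hf
  have toC : ∀ u : X → ℝ, ∫ x, ((u x : ℝ) : ℂ) ∂μ = ((∫ x, u x ∂μ : ℝ) : ℂ) := fun u =>
    integral_complex_ofReal
  refine ⟨F, hF, ?_, fun m n => ?_, fun g g1 g2 g3 => ?_⟩
  · have := (h1 ()).2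
    rw [toC] at this
    exact_mod_cast this
  · have e : ∫ x, ((F (zp T m x) : ℝ) : ℂ) * conj ((F (zp T n x) : ℝ) : ℂ) ∂μ =
        ((∫ x, F (zp T m x) * F (zp T n x) ∂μ : ℝ) : ℂ) := by
      rw [← toC]
      refine integral_congr_ae (Eventually.of_forall fun x => ?_)
      show ((F (zp T m x) : ℝ) : ℂ) * conj ((F (zp T n x) : ℝ) : ℂ) =
        ((F (zp T m x) * F (zp T n x) : ℝ) : ℂ)
      rw [Complex.conj_ofReal, Complex.ofReal_mul]
    have h4 := h2 () () m n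
    by_cases hmn : m = n
    · rw [if_pos ⟨rfl, hmn⟩] at h4
      rw [if_pos hmn]
      have h5 : ((∫ x, F (zp T m x) * F (zp T n x) ∂μ : ℝ) : ℂ) = 1 := e.symm.trans h4
      exact_mod_cast h5
    · rw [if_neg fun h' => hmn h'.2] at h4
      rw [if_neg hmn]
      have h5 : ((∫ x, F (zp T m x) * F (zp T n x) ∂μ : ℝ) : ℂ) = 0 := e.symm.trans h4
      exact_mod_cast h5
  · have h4 := h3 (fun x => ((g x : ℝ) : ℂ)) g1.ofReal (by rw [toC, g2]; simp) (fun _ n => by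
      have e : ∫ x, ((g x : ℝ) : ℂ) * conj ((F (zp T n x) : ℝ) : ℂ) ∂μ =
          ((∫ x, g x * F (zp T n x) ∂μ : ℝ) : ℂ) := by
        rw [← toC]
        refine integral_congr_ae (Eventually.of_forall fun x => ?_)
        show ((g x : ℝ) : ℂ) * conj ((F (zp T n x) : ℝ) : ℂ) =
          ((g x * F (zp T n x) : ℝ) : ℂ)
        rw [Complex.conj_ofReal, Complex.ofReal_mul]
      have h6 : ∫ x, g x * F (zp T n x) ∂μ = 0 := g3 n
      refine e.trans ?_
      rw [h6]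
      simp)
    filter_upwards [h4] with x hx
    have : ((g x : ℝ) : ℂ) = 0 := hx
    exact_mod_cast this

theorem mix_of (hT : MeasurePreserving T μ μ) {J : Type} {f : J → X → ℂ}
    (h : IsOrbitBasis μ T f) : IsStronglyMixing μ T := fun _ _ hA hB => mixing hT h hA hB

/-- **The multiplicity of an orbit basis.** -/
theorem mult_iff (hT : MeasurePreserving T μ μ) {J : Type} [Countable J] {f : J → X → ℂ}
    (h : IsOrbitBasis μ T f) {k : ℕ∞} (hk : ENat.card J = k) (m : ℕ∞) :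
    LebesgueSpectrum μ T m ↔ m = k := by
  constructor
  · rintro ⟨J', f', -, hc, hf'⟩
    rw [← hc, ← hk]
    exact card_unique hT hf' h
  · rintro rfl
    exact ⟨J, f, inferInstance, hk, h⟩

/-- **The powers.** -/
theorem powers_of (hT : MeasurePreserving T μ μ) (h : SimpleLebesgueSpectrum μ T) {k : ℕ}
    (hk : 1 ≤ k) : MeasurePreserving (iter T k) μ μ ∧ IsStronglyMixing μ (iter T k) ∧
      ∀ m : ℕ∞, LebesgueSpectrum μ (iter T k) m ↔ m = k := by
  obtain ⟨f, hf⟩ := orbit_of_simple h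
  have h1 := orbit_iter hT (k := k) (by omega) hf
  refine ⟨mp_iter hT k, mix_of (mp_iter hT k) h1, fun m => mult_iff (mp_iter hT k) h1 ?_ m⟩
  simp

/-- **The square.** -/
theorem square_of (hT : MeasurePreserving T μ μ) (h : SimpleLebesgueSpectrum μ T) :
    MeasurePreserving (T.prodCongr T) (μ.prod μ) (μ.prod μ) ∧
      IsStronglyMixing (μ.prod μ) (T.prodCongr T) ∧
      ∀ m : ℕ∞, LebesgueSpectrum (μ.prod μ) (T.prodCongr T) m ↔ m = ⊤ := by
  obtain ⟨f, hf⟩ := orbit_of_simple h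
  have h1 := orbit_sq hT hf
  refine ⟨mp_sq hT, mix_of (mp_sq hT) h1, fun m => mult_iff (mp_sq hT) h1 ?_ m⟩
  simp

end

end Vale.Agent.P130.H980
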