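import Mathlib.MeasureTheory.Function.L2Space
import Mathlib.Analysis.Fourier.AddCircle
import Mathlib.MeasureTheory.Constructions.Polish.Basic
import Mathlib.Data.ENat.Basic
import Mathlib.SetTheory.Cardinal.Finite

/-!
# P130: definitions (powers, simple Lebesgue spectrum, Lebesgue spectrum of multiplicity `k`, rank one,
strong mixing)
-/

namespace Vale.Agent.P130.H980

open MeasureTheory Filter Topology

/-- `T` has simple Lebesgue spectrum: there is a mean zero function `f` in complex `L²(μ)` such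
that the functions `f ∘ T ^ n`, `n ∈ ℤ`, form an orthonormal basis of the mean zero subspace of
`L²(μ)`, that is, they are orthonormal and a mean zero function in `L²(μ)` that is orthogonal to
all of them vanishes almost everywhere. -/
def SimpleLebesgueSpectrum {X : Type} [MeasurableSpace X] (μ : Measure X) (T : X ≃ᵐ X) : Prop :=
  ∃ f : X → ℂ, MemLp f 2 μ ∧ ∫ x, f x ∂μ = 0 ∧
    (∀ m n : ℤ, ∫ x, f (((T.toEquiv : Equiv.Perm X) ^ m) x) *
      starRingEnd ℂ (f (((T.toEquiv : Equiv.Perm X) ^ n) x)) ∂μ = if m = n then 1 else 0) ∧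
    ∀ g : X → ℂ, MemLp g 2 μ → ∫ x, g x ∂μ = 0 →
      (∀ n : ℤ, ∫ x, g x * starRingEnd ℂ (f (((T.toEquiv : Equiv.Perm X) ^ n) x)) ∂μ = 0) →
      g =ᵐ[μ] 0

/-- `U_T`, `U_T g = g ∘ T`, on the mean zero subspace of complex `L²(μ)` is unitarily equivalent to the
multiplication by the coordinate `w` on `L²(S¹, m)`: some linear, norm preserving `W` maps `L²(S¹, m)`
onto the mean zero subspace, with `W (w φ) = (W φ) ∘ T`. (`S¹` is the circle `ℝ/ℤ`, the coordinate is
`w = fourier 1 t = exp (2 π i t)`, `m` is the normalised Haar measure; `W` acts on functions, and all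
equations hold almost everywhere.) -/
def EquivMulW {X : Type} [MeasurableSpace X] (μ : Measure X) (T : X ≃ᵐ X) : Prop :=
  ∃ (m : Measure UnitAddCircle) (W : (UnitAddCircle → ℂ) → X → ℂ),
    m = AddCircle.haarAddCircle ∧
    (∀ φ, MemLp φ 2 m → MemLp (W φ) 2 μ ∧ ∫ x, W φ x ∂μ = 0 ∧
      eLpNorm (W φ) 2 μ = eLpNorm φ 2 m ∧
      W (fun t => fourier 1 t * φ t) =ᵐ[μ] fun x => W φ (T x)) ∧
    (∀ φ ψ, MemLp φ 2 m → MemLp ψ 2 m → ∀ a b : ℂ,
      W (fun t => a * φ t + b * ψ t) =ᵐ[μ] fun x => a * W φ x + b * W ψ x) ∧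
    ∀ g, MemLp g 2 μ → ∫ x, g x ∂μ = 0 → ∃ φ, MemLp φ 2 m ∧ W φ =ᵐ[μ] g

/-- The real form: the real-valued function `f` is such that the functions `f ∘ T ^ n`, `n ∈ ℤ`,
form an orthonormal basis of the mean zero subspace of real `L²(μ)`. -/
def IsRealOrbitBasis {X : Type} [MeasurableSpace X] (μ : Measure X) (T : X ≃ᵐ X) (f : X → ℝ) :
    Prop :=
  MemLp f 2 μ ∧ ∫ x, f x ∂μ = 0 ∧
    (∀ m n : ℤ, ∫ x, f (((T.toEquiv : Equiv.Perm X) ^ m) x) *
      f (((T.toEquiv : Equiv.Perm X) ^ n) x) ∂μ = if m = n then 1 else 0) ∧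
    ∀ g : X → ℝ, MemLp g 2 μ → ∫ x, g x ∂μ = 0 →
      (∀ n : ℤ, ∫ x, g x * f (((T.toEquiv : Equiv.Perm X) ^ n) x) ∂μ = 0) → g =ᵐ[μ] 0

/-- `T` has rank one: there is a sequence of Rokhlin towers with pairwise disjoint levels
`B n, T (B n), …, T^(h n - 1) (B n)` such that every measurable set is approximated, for all large
`n`, by unions of levels of the `n`-th tower. -/
def IsRankOneMap {X : Type} [MeasurableSpace X] (μ : Measure X) (T : X ≃ᵐ X) : Prop :=
  ∃ (h : ℕ → ℕ) (B : ℕ → Set X), (∀ n, MeasurableSet (B n)) ∧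
    (∀ n, ∀ i < h n, ∀ j < h n, i ≠ j → Disjoint (T^[i] '' B n) (T^[j] '' B n)) ∧
    ∀ A : Set X, MeasurableSet A → ∀ ε : ENNReal, 0 < ε → ∃ N : ℕ, ∀ n ≥ N, ∃ F : Finset ℕ,
      (∀ i ∈ F, i < h n) ∧ μ (symmDiff A (⋃ i ∈ F, T^[i] '' B n)) ≤ ε

/-- The power `T ^ k`, `k = 0, 1, 2, …`, of an invertible bimeasurable map `T`. -/
def iter {X : Type} [MeasurableSpace X] (T : X ≃ᵐ X) : ℕ → (X ≃ᵐ X)
  | 0 => MeasurableEquiv.refl X
  | k + 1 => (iter T k).trans T

/-- `T` is strongly mixing: `μ (A ∩ T⁻ⁿ B) → μ A * μ B` for all measurable `A`, `B`. -/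
def IsStronglyMixing {X : Type} [MeasurableSpace X] (μ : Measure X) (T : X ≃ᵐ X) : Prop :=
  ∀ A B : Set X, MeasurableSet A → MeasurableSet B →
    Tendsto (fun n : ℕ => μ (A ∩ iter T n ⁻¹' B)) atTop (𝓝 (μ A * μ B))

open Classical in
/-- The functions `f j ∘ T ^ n`, `j ∈ J`, `n ∈ ℤ`, form an orthonormal basis of the mean zero
subspace of complex `L²(μ)`: they are square integrable with mean zero, orthonormal, and a mean zero
function in `L²(μ)` that is orthogonal to all of them vanishes almost everywhere. -/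
def IsOrbitBasis {X : Type} [MeasurableSpace X] (μ : Measure X) (T : X ≃ᵐ X) {J : Type}
    (f : J → X → ℂ) : Prop :=
  (∀ j, MemLp (f j) 2 μ ∧ ∫ x, f j x ∂μ = 0) ∧
  (∀ (i j : J) (m n : ℤ), ∫ x, f i (((T.toEquiv : Equiv.Perm X) ^ m) x) *
    starRingEnd ℂ (f j (((T.toEquiv : Equiv.Perm X) ^ n) x)) ∂μ = if i = j ∧ m = n then 1 else 0) ∧
  ∀ g : X → ℂ, MemLp g 2 μ → ∫ x, g x ∂μ = 0 →
    (∀ (j : J) (n : ℤ),
      ∫ x, g x * starRingEnd ℂ (f j (((T.toEquiv : Equiv.Perm X) ^ n) x)) ∂μ = 0) →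
    g =ᵐ[μ] 0

/-- `T` has Lebesgue spectrum of multiplicity `k ∈ {0, 1, 2, …} ∪ {∞}`: for a countable index set `J`
with `k` elements some family `f j`, `j ∈ J`, is such that the functions `f j ∘ T ^ n` form an
orthonormal basis of the mean zero subspace of `L²(μ)`. (Each `f j` spans a copy of the shift on
`ℓ²(ℤ)`, that is of the multiplication by `w` on `L²(S¹)`.) -/
def LebesgueSpectrum {X : Type} [MeasurableSpace X] (μ : Measure X) (T : X ≃ᵐ X) (k : ℕ∞) : Prop :=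
  ∃ (J : Type) (f : J → X → ℂ), Countable J ∧ ENat.card J = k ∧ IsOrbitBasis μ T f

/-- `T` preserves `μ`, is strongly mixing and has Lebesgue spectrum of multiplicity exactly `m`: it has
Lebesgue spectrum of multiplicity `m` and of no other multiplicity. -/
def MixingOfMultiplicity {X : Type} [MeasurableSpace X] (μ : Measure X) (T : X ≃ᵐ X) (m : ℕ∞) :
    Prop :=
  MeasurePreserving T μ μ ∧ IsStronglyMixing μ T ∧ ∀ l : ℕ∞, LebesgueSpectrum μ T l ↔ l = m

end Vale.Agent.P130.H980
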