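import Vale.Agent.P130.H980.Defs
import Mathlib

/-!
# P130: Lebesgue spectrum of every multiplicity from one transformation
-/

namespace Vale.Agent.P130.H980

open MeasureTheory Filter Topology
open scoped ENNReal ComplexConjugate

/-! ### orthonormal bases of the mean zero subspace -/

section basis

variable {X : Type} [MeasurableSpace X] {μ : Measure X}

theorem inner_toLp {u v : X → ℂ} (hu : MemLp u 2 μ) (hv : MemLp v 2 μ) :
    inner ℂ (hv.toLp v) (hu.toLp u) = ∫ x, u x * conj (v x) ∂μ := by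
  rw [L2.inner_def]
  refine integral_congr_ae ?_
  filter_upwards [hu.coeFn_toLp, hv.coeFn_toLp] with x h1 h2
  rw [h1, h2, RCLike.inner_apply]

open Classical in
/-- An orthonormal basis of the mean zero subspace. -/
structure IsOnb (μ : Measure X) {ι : Type} (v : ι → X → ℂ) : Prop where
  mem : ∀ i, MemLp (v i) 2 μ
  mean : ∀ i, ∫ x, v i x ∂μ = 0
  on : ∀ i j, ∫ x, v i x * conj (v j x) ∂μ = if i = j then 1 else 0
  total : ∀ g : X → ℂ, MemLp g 2 μ → ∫ x, g x ∂μ = 0 →
    (∀ i, ∫ x, g x * conj (v i x) ∂μ = 0) → g =ᵐ[μ] 0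

variable [IsProbabilityMeasure μ] {ι : Type} {v : ι → X → ℂ}

theorem mem_one : MemLp (fun _ : X => (1 : ℂ)) 2 μ := memLp_const 1

/-- The vectors with the constant added. -/
noncomputable def vec (h : IsOnb μ v) : Option ι → Lp ℂ 2 μ
  | none => (mem_one (μ := μ)).toLp _
  | some i => (h.mem i).toLp (v i)

theorem vec_on (h : IsOnb μ v) : Orthonormal ℂ (vec h) := by
  classical
  rw [orthonormal_iff_ite]
  rintro (_ | i) (_ | j)
  · show inner ℂ ((mem_one (μ := μ)).toLp _) ((mem_one (μ := μ)).toLp _) = _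
    rw [inner_toLp]
    simp
  · show inner ℂ ((mem_one (μ := μ)).toLp _) ((h.mem j).toLp (v j)) = _
    rw [inner_toLp]
    simpa using h.mean j
  · show inner ℂ ((h.mem i).toLp (v i)) ((mem_one (μ := μ)).toLp _) = _
    rw [inner_toLp]
    have h1 : ∫ x, (1 : ℂ) * conj (v i x) ∂μ = conj (∫ x, v i x ∂μ) := by
      rw [← integral_conj]
      simp
    rw [h1, h.mean i]
    simp
  · show inner ℂ ((h.mem i).toLp (v i)) ((h.mem j).toLp (v j)) = _
    rw [inner_toLp, h.on j i]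
    by_cases hij : i = j
    · subst hij; simp
    · rw [if_neg (fun h' => hij h'.symm), if_neg (fun h' => hij (Option.some_injective _ h'))]

theorem vec_tot (h : IsOnb μ v) : (Submodule.span ℂ (Set.range (vec h)))ᗮ = ⊥ := by
  rw [Submodule.eq_bot_iff]
  intro g hg
  rw [Submodule.mem_orthogonal] at hg
  have hgm : MemLp (g : X → ℂ) 2 μ := Lp.memLp g
  have eg : hgm.toLp (g : X → ℂ) = g := Lp.toLp_coeFn g hgm
  have h0 : ∫ x, g x ∂μ = 0 := by
    have := hg (vec h none) (Submodule.subset_span ⟨none, rfl⟩)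
    rw [← eg] at this
    have e : inner ℂ (vec h none) (hgm.toLp (g : X → ℂ)) = ∫ x, g x * conj (1 : ℂ) ∂μ :=
      inner_toLp hgm mem_one
    rw [e] at this
    simpa using this
  have h1 : (g : X → ℂ) =ᵐ[μ] 0 := by
    refine h.total g hgm h0 fun i => ?_
    have := hg (vec h (some i)) (Submodule.subset_span ⟨some i, rfl⟩)
    rw [← eg] at this
    have e : inner ℂ (vec h (some i)) (hgm.toLp (g : X → ℂ)) = ∫ x, g x * conj (v i x) ∂μ :=
      inner_toLp hgm (h.mem i)
    rw [e] at this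
    exact this
  exact (Lp.eq_zero_iff_ae_eq_zero).2 h1

/-- The Hilbert basis. -/
noncomputable def hb (h : IsOnb μ v) : HilbertBasis (Option ι) ℂ (Lp ℂ 2 μ) :=
  HilbertBasis.mkOfOrthogonalEqBot (vec_on h) (vec_tot h)

theorem hb_apply (h : IsOnb μ v) (i : Option ι) : hb h i = vec h i := by
  unfold hb
  rw [HilbertBasis.coe_mkOfOrthogonalEqBot]

/-- **Parseval.** -/
theorem parseval (h : IsOnb μ v) {u : X → ℂ} (hu : MemLp u 2 μ) (hu0 : ∫ x, u x ∂μ = 0)
    (hu1 : ∫ x, u x * conj (u x) ∂μ = 1) :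
    ∑' i, ENNReal.ofReal (‖∫ x, u x * conj (v i x) ∂μ‖ ^ 2) = 1 := by
  have h1 := (hb h).hasSum_inner_mul_inner (hu.toLp u) (hu.toLp u)
  rw [inner_toLp hu hu, hu1] at h1
  have h2 : HasSum (fun i => ‖inner ℂ (vec h i) (hu.toLp u)‖ ^ 2) 1 := by
    have h3 := Complex.reCLM.hasSum h1
    have e : (fun i => ‖inner ℂ (vec h i) (hu.toLp u)‖ ^ 2) = fun i =>
        Complex.reCLM (inner ℂ (hu.toLp u) (hb h i) * inner ℂ (hb h i) (hu.toLp u)) := by
      funext i
      rw [hb_apply, ← inner_conj_symm (hu.toLp u) (vec h i), mul_comm, Complex.mul_conj]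
      rw [Complex.normSq_eq_norm_sq]
      exact (Complex.ofReal_re _).symm
    rw [e]
    simpa using h3
  have h4 : ∑' i, ENNReal.ofReal (‖inner ℂ (vec h i) (hu.toLp u)‖ ^ 2) = 1 := by
    rw [← ENNReal.ofReal_tsum_of_nonneg (fun i => sq_nonneg _) h2.summable, h2.tsum_eq,
      ENNReal.ofReal_one]
  rw [← h4]
  have h5 : ∀ i : ι, ENNReal.ofReal (‖∫ x, u x * conj (v i x) ∂μ‖ ^ 2) =
      ENNReal.ofReal (‖inner ℂ (vec h (some i)) (hu.toLp u)‖ ^ 2) := by
    intro i
    have e : inner ℂ (vec h (some i)) (hu.toLp u) = ∫ x, u x * conj (v i x) ∂μ :=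
      inner_toLp hu (h.mem i)
    rw [e]
  simp_rw [h5]
  refine (Option.some_injective ι).tsum_eq
    (f := fun i : Option ι => ENNReal.ofReal (‖inner ℂ (vec h i) (hu.toLp u)‖ ^ 2)) ?_
  rintro (_ | i) hi
  · exfalso
    apply hi
    have e : inner ℂ (vec h none) (hu.toLp u) = ∫ x, u x * conj (1 : ℂ) ∂μ :=
      inner_toLp hu mem_one
    show ENNReal.ofReal (‖inner ℂ (vec h none) (hu.toLp u)‖ ^ 2) = 0
    rw [e]
    simp [hu0]
  · exact ⟨i, rfl⟩

end basis

/-! ### powers -/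

section powers

variable {X : Type} [MeasurableSpace X] {μ : Measure X} {T : X ≃ᵐ X}

/-- The map `T ^ n`. -/
abbrev zp (T : X ≃ᵐ X) (n : ℤ) : X → X := fun x => ((T.toEquiv : Equiv.Perm X) ^ n) x

theorem iter_perm (T : X ≃ᵐ X) (k : ℕ) :
    ((iter T k).toEquiv : Equiv.Perm X) = (T.toEquiv : Equiv.Perm X) ^ k := by
  induction k with
  | zero => rfl
  | succ k ih =>
    rw [pow_succ', ← ih]
    rfl

theorem zp_iter (T : X ≃ᵐ X) (k : ℕ) (n : ℤ) : zp (iter T k) n = zp T (k * n) := by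
  funext x
  show (((iter T k).toEquiv : Equiv.Perm X) ^ n) x = _
  rw [iter_perm, ← zpow_natCast, ← zpow_mul]

theorem zp_add (T : X ≃ᵐ X) (m n : ℤ) (x : X) : zp T (m + n) x = zp T m (zp T n x) := by
  show ((T.toEquiv : Equiv.Perm X) ^ (m + n)) x = _
  rw [zpow_add]
  rfl

theorem zp_zero (T : X ≃ᵐ X) : zp T 0 = id := by
  funext x
  show ((T.toEquiv : Equiv.Perm X) ^ (0 : ℤ)) x = x
  rw [zpow_zero]
  rfl

theorem zp_nat (T : X ≃ᵐ X) (n : ℕ) : zp T n = iter T n := by
  funext x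
  show ((T.toEquiv : Equiv.Perm X) ^ (n : ℤ)) x = _
  rw [zpow_natCast, ← iter_perm]
  rfl

theorem meas_zp (T : X ≃ᵐ X) (n : ℤ) : Measurable (zp T n) := by
  obtain ⟨k, rfl | rfl⟩ := n.eq_nat_or_neg
  · rw [zp_nat]
    exact (iter T k).measurable
  · have e : zp T (-(k : ℤ)) = (iter T k).symm := by
      funext x
      apply (iter T k).injective
      rw [MeasurableEquiv.apply_symm_apply, ← zp_nat, ← zp_add, add_neg_cancel, zp_zero]
      rfl
    rw [e]
    exact (iter T k).symm.measurable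

/-- `T ^ n` as an equivalence. -/
def zpE (T : X ≃ᵐ X) (n : ℤ) : X ≃ᵐ X where
  toEquiv := (T.toEquiv : Equiv.Perm X) ^ n
  measurable_toFun := meas_zp T n
  measurable_invFun := by
    have h := meas_zp T (-n)
    unfold zp at h
    rw [zpow_neg] at h
    exact h

theorem mp_iter (hT : MeasurePreserving T μ μ) (k : ℕ) : MeasurePreserving (iter T k) μ μ := by
  induction k with
  | zero => exact MeasurePreserving.id μ
  | succ k ih => exact hT.comp ih

theorem mp_zp (hT : MeasurePreserving T μ μ) (n : ℤ) : MeasurePreserving (zp T n) μ μ := by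
  obtain ⟨k, rfl | rfl⟩ := n.eq_nat_or_neg
  · rw [zp_nat]
    exact mp_iter hT k
  · have e : zp T (-(k : ℤ)) = (iter T k).symm := by
      funext x
      apply (iter T k).injective
      rw [MeasurableEquiv.apply_symm_apply, ← zp_nat, ← zp_add, add_neg_cancel, zp_zero]
      rfl
    rw [e]
    exact (mp_iter hT k).symm (iter T k)

theorem int_zp (hT : MeasurePreserving T μ μ) (n : ℤ) (g : X → ℂ) :
    ∫ x, g (zp T n x) ∂μ = ∫ x, g x ∂μ :=
  (mp_zp hT n).integral_comp (zpE T n).measurableEmbedding g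

/-- The orbit of a family. -/
def orb (T : X ≃ᵐ X) {J : Type} (f : J → X → ℂ) (p : J × ℤ) : X → ℂ := fun x => f p.1 (zp T p.2 x)

theorem onb_of (hT : MeasurePreserving T μ μ) {J : Type} {f : J → X → ℂ}
    (h : IsOrbitBasis μ T f) : IsOnb μ (orb T f) := by
  classical
  obtain ⟨h1, h2, h3⟩ := h
  refine ⟨fun p => (h1 p.1).1.comp_measurePreserving (mp_zp hT p.2), fun p => ?_, ?_, ?_⟩
  · exact (int_zp hT p.2 (f p.1)).trans (h1 p.1).2
  · rintro ⟨i, m⟩ ⟨j, n⟩
    refine (h2 i j m n).trans ?_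
    simp only [Prod.mk.injEq]
  · intro g g1 g2 g3
    exact h3 g g1 g2 fun j n => g3 (j, n)

theorem norm_sw (hT : MeasurePreserving T μ μ) (u v : X → ℂ) (n : ℤ) :
    ‖∫ x, v x * conj (u (zp T n x)) ∂μ‖ = ‖∫ x, u x * conj (v (zp T (-n) x)) ∂μ‖ := by
  have h1 := int_zp hT (-n) fun x => v x * conj (u (zp T n x))
  have h2 : ∫ x, v (zp T (-n) x) * conj (u (zp T n (zp T (-n) x))) ∂μ =
      conj (∫ x, u x * conj (v (zp T (-n) x)) ∂μ) := by
    rw [← integral_conj]
    refine integral_congr_ae (Eventually.of_forall fun x => ?_)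
    show v (zp T (-n) x) * conj (u (zp T n (zp T (-n) x))) =
      conj (u x * conj (v (zp T (-n) x)))
    rw [← zp_add, add_neg_cancel, zp_zero, id, map_mul, RCLike.conj_conj]
    ring
  rw [← h1, h2, RCLike.norm_conj]

variable [IsProbabilityMeasure μ]

/-- **The multiplicity is unique.** -/
theorem card_unique (hT : MeasurePreserving T μ μ) {J J' : Type} {f : J → X → ℂ}
    {f' : J' → X → ℂ} (h : IsOrbitBasis μ T f) (h' : IsOrbitBasis μ T f') :
    ENat.card J = ENat.card J' := by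
  have key : ∀ {J J' : Type} {f : J → X → ℂ} {f' : J' → X → ℂ}, IsOrbitBasis μ T f →
      IsOrbitBasis μ T f' → ∀ j : J, ∑' (j' : J') (n : ℤ),
        ENNReal.ofReal (‖∫ x, f j x * conj (f' j' (zp T n x)) ∂μ‖ ^ 2) = 1 := by
    intro J J' f f' h h' j
    have h1 := parseval (onb_of hT h') (h.1 j).1 (h.1 j).2 (by
      have := h.2.1 j j 0 0
      simpa using this)
    rw [← h1, ENNReal.tsum_prod']
    rfl
  have e1 : (ENat.card J : ℝ≥0∞) = ∑' (j : J) (j' : J') (n : ℤ),
      ENNReal.ofReal (‖∫ x, f j x * conj (f' j' (zp T n x)) ∂μ‖ ^ 2) := by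
    simp_rw [key h h']
    rw [ENNReal.tsum_const, mul_one]
  have e2 : (ENat.card J' : ℝ≥0∞) = ∑' (j' : J') (j : J) (n : ℤ),
      ENNReal.ofReal (‖∫ x, f' j' x * conj (f j (zp T n x)) ∂μ‖ ^ 2) := by
    simp_rw [key h' h]
    rw [ENNReal.tsum_const, mul_one]
  have e3 : (ENat.card J : ℝ≥0∞) = ENat.card J' := by
    rw [e1, e2, ENNReal.tsum_comm]
    refine tsum_congr fun j' => tsum_congr fun j => ?_
    rw [← (Equiv.neg ℤ).tsum_eq]
    refine tsum_congr fun n => ?_
    rw [norm_sw hT (f' j') (f j)]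
    simp
  exact_mod_cast e3

end powers

end Vale.Agent.P130.H980
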