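import Vale.Agent.P130.H980.Main

/-!
# P130: powers and strong mixing
-/

namespace Vale.Agent.P130.H980

open MeasureTheory Filter Topology
open scoped ENNReal ComplexConjugate

section powers

variable {X : Type} [MeasurableSpace X] {μ : Measure X} {T : X ≃ᵐ X}

/-- **The powers of `T`.** -/
theorem orbit_iter (hT : MeasurePreserving T μ μ) {k : ℕ} (hk : 0 < k) {J : Type}
    {f : J → X → ℂ} (h : IsOrbitBasis μ T f) :
    IsOrbitBasis μ (iter T k) fun (p : J × Fin k) x => f p.1 (zp T ((p.2 : ℕ) : ℤ) x) := by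
  classical
  obtain ⟨h1, h2, h3⟩ := h
  have hk' : (0 : ℤ) < k := by exact_mod_cast hk
  have e : ∀ (j : J) (r : ℤ) (n : ℤ) (x : X),
      f j (zp T r (zp (iter T k) n x)) = f j (zp T (r + k * n) x) := by
    intro j r n x
    rw [zp_iter, ← zp_add]
  refine ⟨fun p => ⟨(h1 p.1).1.comp_measurePreserving (mp_zp hT _),
    (int_zp hT _ (f p.1)).trans (h1 p.1).2⟩, ?_, ?_⟩
  · rintro ⟨i, r⟩ ⟨j, s⟩ m n
    have h4 := h2 i j ((r : ℕ) + k * m) ((s : ℕ) + k * n)
    have e1 : ∫ x, f i (zp T ((r : ℕ) : ℤ) (zp (iter T k) m x)) *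
        conj (f j (zp T ((s : ℕ) : ℤ) (zp (iter T k) n x))) ∂μ =
        ∫ x, f i (zp T ((r : ℕ) + k * m) x) * conj (f j (zp T ((s : ℕ) + k * n) x)) ∂μ := by
      simp only [e]
    have hiff : (i = j ∧ ((r : ℕ) : ℤ) + k * m = (s : ℕ) + k * n) ↔ ((i, r) = (j, s) ∧ m = n) := by
      simp only [Prod.mk.injEq]
      constructor
      · rintro ⟨h5, h6⟩
        have hr : ((r : ℕ) : ℤ) < k := by exact_mod_cast r.2
        have hs : ((s : ℕ) : ℤ) < k := by exact_mod_cast s.2
        have h7 : m = n := by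
          have a1 : (((r : ℕ) : ℤ) + k * m) / k = m := by
            rw [Int.add_mul_ediv_left _ _ hk'.ne', Int.ediv_eq_zero_of_lt (by positivity) hr,
              zero_add]
          have a2 : (((s : ℕ) : ℤ) + k * n) / k = n := by
            rw [Int.add_mul_ediv_left _ _ hk'.ne', Int.ediv_eq_zero_of_lt (by positivity) hs,
              zero_add]
          rw [← a1, ← a2, h6]
        refine ⟨⟨h5, Fin.ext ?_⟩, h7⟩
        subst h7
        have : ((r : ℕ) : ℤ) = (s : ℕ) := by linarith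
        exact_mod_cast this
      · rintro ⟨⟨h5, h6⟩, h7⟩
        exact ⟨h5, by rw [h6, h7]⟩
    refine e1.trans (h4.trans ?_)
    by_cases hc : i = j ∧ ((r : ℕ) : ℤ) + k * m = (s : ℕ) + k * n
    · rw [if_pos hc]
      exact (if_pos (hiff.1 hc)).symm
    · rw [if_neg hc]
      exact (if_neg fun h' => hc (hiff.2 h')).symm
  · intro g g1 g2 g3
    refine h3 g g1 g2 fun j n => ?_
    have hr : n % k < k := Int.emod_lt_of_pos n hk'
    have hr0 : 0 ≤ n % k := Int.emod_nonneg n hk'.ne'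
    have h4 := g3 (j, ⟨(n % k).toNat, by omega⟩) (n / k)
    have e1 : ∀ x, f j (zp T (((n % k).toNat : ℕ) : ℤ) (zp (iter T k) (n / k) x)) =
        f j (zp T n x) := by
      intro x
      rw [e, Int.toNat_of_nonneg hr0, Int.emod_add_mul_ediv]
    have e2 : ∫ x, g x * conj (f j (zp T (((n % k).toNat : ℕ) : ℤ) (zp (iter T k) (n / k) x))) ∂μ =
        ∫ x, g x * conj (f j (zp T n x)) ∂μ := by
      simp only [e1]
    rw [← e2]
    exact h4

/-! ### mixing -/

theorem tendsto_of_dense {E : Type*} [NormedAddCommGroup E] [NormedSpace ℂ E] {s : Set E}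
    (hs : (Submodule.span ℂ s).topologicalClosure = ⊤) {φ : ℕ → E →L[ℂ] ℂ} {ψ : E →L[ℂ] ℂ} {M : ℝ}
    (hM : ∀ n, ‖φ n‖ ≤ M) (h : ∀ u ∈ s, Tendsto (fun n => φ n u) atTop (𝓝 (ψ u))) (u : E) :
    Tendsto (fun n => φ n u) atTop (𝓝 (ψ u)) := by
  have hspan : ∀ w ∈ Submodule.span ℂ s, Tendsto (fun n => φ n w) atTop (𝓝 (ψ w)) := by
    intro w hw
    induction hw using Submodule.span_induction with
    | mem w hw => exact h w hw
    | zero => simp
    | add x y _ _ hx hy => simpa using hx.add hy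
    | smul a x _ hx => simpa using hx.const_mul a
  have hM0 : 0 ≤ M := (norm_nonneg _).trans (hM 0)
  rw [Metric.tendsto_atTop]
  intro ε hε
  have hu : u ∈ closure (Submodule.span ℂ s : Set E) := by
    have : u ∈ (Submodule.span ℂ s).topologicalClosure := by rw [hs]; trivial
    exact this
  obtain ⟨w, hw, hd⟩ := Metric.mem_closure_iff.1 hu (ε / (2 * (M + ‖ψ‖ + 1))) (by positivity)
  obtain ⟨N, hN⟩ := Metric.tendsto_atTop.1 (hspan w hw) (ε / 2) (by positivity)
  refine ⟨N, fun n hn => ?_⟩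
  have h1 := hN n hn
  rw [dist_eq_norm] at h1 hd ⊢
  have e : φ n u - ψ u = φ n (u - w) + (φ n w - ψ w) - ψ (u - w) := by
    rw [map_sub, map_sub]; ring
  have h2 : ‖φ n (u - w)‖ ≤ M * ‖u - w‖ :=
    ((φ n).le_opNorm _).trans (mul_le_mul_of_nonneg_right (hM n) (norm_nonneg _))
  have h3 : ‖ψ (u - w)‖ ≤ ‖ψ‖ * ‖u - w‖ := ψ.le_opNorm _
  have h4 : ‖φ n u - ψ u‖ ≤ ‖φ n (u - w)‖ + ‖φ n w - ψ w‖ + ‖ψ (u - w)‖ := by
    rw [e]
    exact (norm_sub_le _ _).trans (add_le_add_left (norm_add_le _ _) _)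
  have h5 : (M + ‖ψ‖) * ‖u - w‖ ≤ ε / 2 := by
    have : (M + ‖ψ‖) * ‖u - w‖ ≤ (M + ‖ψ‖ + 1) * (ε / (2 * (M + ‖ψ‖ + 1))) :=
      mul_le_mul (by linarith) hd.le (norm_nonneg _) (by positivity)
    refine this.trans (le_of_eq ?_)
    field_simp
  linarith

variable [IsProbabilityMeasure μ]

/-- **Mixing of functions.** -/
theorem mixing_fun (hT : MeasurePreserving T μ μ) {J : Type} {f : J → X → ℂ}
    (h : IsOrbitBasis μ T f) {u v : X → ℂ} (hu : MemLp u 2 μ) (hv : MemLp v 2 μ) :
    Tendsto (fun n : ℕ => ∫ x, u (iter T n x) * conj (v x) ∂μ) atTop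
      (𝓝 ((∫ x, u x ∂μ) * conj (∫ x, v x ∂μ))) := by
  have ho := onb_of hT h
  set b := hb ho with hbdef
  set V := hv.toLp v with hV
  set φ : ℕ → Lp ℂ 2 μ →L[ℂ] ℂ := fun n => (innerSL ℂ V).comp
    (Lp.compMeasurePreservingₗᵢ ℂ (iter T n) (mp_iter hT n)).toContinuousLinearMap with hφ
  set ψ : Lp ℂ 2 μ →L[ℂ] ℂ :=
    (inner ℂ V (vec ho none)) • (innerSL ℂ (vec ho none)) with hψ
  have hM : ∀ n, ‖φ n‖ ≤ ‖V‖ := by
    intro n
    refine ContinuousLinearMap.opNorm_le_bound _ (norm_nonneg _) fun x => ?_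
    show ‖inner ℂ V (Lp.compMeasurePreservingₗᵢ ℂ (iter T n) (mp_iter hT n) x)‖ ≤ _
    refine (norm_inner_le_norm _ _).trans (le_of_eq ?_)
    rw [LinearIsometry.norm_map]
  have hvec : ∀ i, Tendsto (fun n => φ n (vec ho i)) atTop (𝓝 (ψ (vec ho i))) := by
    rintro (_ | ⟨j, m⟩)
    · have e1 : ∀ n, φ n (vec ho none) = ψ (vec ho none) := by
        intro n
        show inner ℂ V (Lp.compMeasurePreserving (iter T n) (mp_iter hT n)
          ((mem_one (μ := μ)).toLp _)) = inner ℂ V (vec ho none) *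
            inner ℂ (vec ho none) (vec ho none)
        have h1 : inner ℂ (vec ho none) (vec ho none) = (1 : ℂ) := by
          rw [inner_self_eq_norm_sq_to_K, (vec_on ho).1 none]
          simp
        rw [h1, mul_one]
        rfl
      simp only [e1]
      exact tendsto_const_nhds
    · have e1 : ∀ n : ℕ, φ n (vec ho (some (j, m))) = inner ℂ V (vec ho (some (j, m + n))) := by
        intro n
        show inner ℂ V (Lp.compMeasurePreserving (iter T n) (mp_iter hT n)
          ((ho.mem (j, m)).toLp _)) = inner ℂ V ((ho.mem (j, m + n)).toLp _)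
        rw [Lp.toLp_compMeasurePreserving]
        congr 1
        refine MemLp.toLp_congr _ _ (Eventually.of_forall fun x => ?_)
        show f j (zp T m (iter T n x)) = f j (zp T (m + n) x)
        rw [zp_add, zp_nat]
      have e2 : ψ (vec ho (some (j, m))) = 0 := by
        show inner ℂ V (vec ho none) * inner ℂ (vec ho none) (vec ho (some (j, m))) = 0
        rw [(vec_on ho).2 (by simp), mul_zero]
      rw [e2]
      simp only [e1]
      have h1 := (b.summable_inner_mul_inner V V).tendsto_cofinite_zero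
      have hinj : Function.Injective fun n : ℕ => (some (j, m + (n : ℤ)) : Option (J × ℤ)) := by
        intro n n' hn
        simpa using hn
      have h2 := h1.comp hinj.tendsto_cofinite
      rw [Nat.cofinite_eq_atTop] at h2
      have h3 := h2.norm
      rw [norm_zero] at h3
      rw [tendsto_zero_iff_norm_tendsto_zero]
      have h4 := h3.sqrt
      rw [Real.sqrt_zero] at h4
      refine h4.congr fun n => ?_
      show √‖inner ℂ V (b (some (j, m + (n : ℤ)))) * inner ℂ (b (some (j, m + (n : ℤ)))) V‖ = _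
      rw [norm_mul, norm_inner_symm (b (some (j, m + (n : ℤ)))) V, Real.sqrt_mul_self (norm_nonneg _),
        hbdef, hb_apply]
  have hs : (Submodule.span ℂ (Set.range (vec ho))).topologicalClosure = ⊤ := by
    have := b.dense_span
    have e : (b : Option (J × ℤ) → Lp ℂ 2 μ) = vec ho := by
      funext i
      rw [hbdef, hb_apply]
    rwa [e] at this
  have key := tendsto_of_dense hs hM (ψ := ψ) (by rintro _ ⟨i, rfl⟩; exact hvec i) (hu.toLp u)
  have e1 : ∀ n, φ n (hu.toLp u) = ∫ x, u (iter T n x) * conj (v x) ∂μ := by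
    intro n
    show inner ℂ V (Lp.compMeasurePreserving (iter T n) (mp_iter hT n) (hu.toLp u)) = _
    rw [Lp.toLp_compMeasurePreserving, hV, inner_toLp]
    rfl
  have e2 : ψ (hu.toLp u) = (∫ x, u x ∂μ) * conj (∫ x, v x ∂μ) := by
    show inner ℂ V ((mem_one (μ := μ)).toLp _) * inner ℂ ((mem_one (μ := μ)).toLp _) (hu.toLp u) = _
    rw [hV, inner_toLp, inner_toLp]
    have h1 : ∫ x, (1 : ℂ) * conj (v x) ∂μ = conj (∫ x, v x ∂μ) := by
      rw [← integral_conj]
      simp
    rw [h1]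
    simp [mul_comm]
  rw [e2] at key
  exact key.congr e1

omit [IsProbabilityMeasure μ] in
theorem int_ind {s : Set X} (hs : MeasurableSet s) :
    ∫ x, s.indicator (fun _ => (1 : ℂ)) x ∂μ = (μ.real s : ℂ) := by
  rw [integral_indicator hs]
  simp

/-- **Strong mixing.** -/
theorem mixing (hT : MeasurePreserving T μ μ) {J : Type} {f : J → X → ℂ}
    (h : IsOrbitBasis μ T f) {A B : Set X} (hA : MeasurableSet A) (hB : MeasurableSet B) :
    Tendsto (fun n : ℕ => μ (A ∩ iter T n ⁻¹' B)) atTop (𝓝 (μ A * μ B)) := by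
  have h1 := mixing_fun hT h (u := B.indicator fun _ => (1 : ℂ))
    (v := A.indicator fun _ => (1 : ℂ)) ((memLp_const 1).indicator hB) ((memLp_const 1).indicator hA)
  rw [int_ind hA, int_ind hB] at h1
  have e1 : ∀ n : ℕ, ∫ x, B.indicator (fun _ => (1 : ℂ)) (iter T n x) *
      conj (A.indicator (fun _ => (1 : ℂ)) x) ∂μ = (μ.real (A ∩ iter T n ⁻¹' B) : ℂ) := by
    intro n
    rw [← int_ind (hA.inter ((iter T n).measurable hB))]
    refine integral_congr_ae (Eventually.of_forall fun x => ?_)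
    by_cases a1 : x ∈ A <;> by_cases a2 : iter T n x ∈ B <;>
      simp [Set.indicator, a1, a2]
  simp only [e1] at h1
  rw [Complex.conj_ofReal, ← Complex.ofReal_mul] at h1
  have h2 : Tendsto (fun n : ℕ => μ.real (A ∩ iter T n ⁻¹' B)) atTop (𝓝 (μ.real B * μ.real A)) := by
    have := (Complex.continuous_re.tendsto _).comp h1
    simpa [Function.comp_def] using this
  have h3 := ENNReal.tendsto_ofReal h2
  rw [ENNReal.ofReal_mul measureReal_nonneg, ofReal_measureReal, ofReal_measureReal, mul_comm] at h3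
  refine h3.congr fun n => ?_
  rw [ofReal_measureReal]

end powers

end Vale.Agent.P130.H980
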