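import Vale.Agent.P130.H980.Mix

/-!
# P130: the Cartesian square has Lebesgue spectrum of multiplicity `∞`
-/

namespace Vale.Agent.P130.H980

open MeasureTheory Filter Topology
open scoped ENNReal ComplexConjugate

section prod

variable {X : Type} [MeasurableSpace X] {μ : Measure X}

theorem cs {u v : X → ℂ} (hu : MemLp u 2 μ) (hv : MemLp v 2 μ) :
    ‖∫ x, u x * conj (v x) ∂μ‖ ^ 2 ≤ (∫ x, ‖u x‖ ^ 2 ∂μ) * ∫ x, ‖v x‖ ^ 2 ∂μ := by
  have h1 : ∀ {w : X → ℂ} (hw : MemLp w 2 μ), ‖hw.toLp w‖ ^ 2 = ∫ x, ‖w x‖ ^ 2 ∂μ := by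
    intro w hw
    have h2 : (inner ℂ (hw.toLp w) (hw.toLp w) : ℂ) = ((‖hw.toLp w‖ ^ 2 : ℝ) : ℂ) := by
      rw [inner_self_eq_norm_sq_to_K]; norm_cast
    rw [inner_toLp] at h2
    have h3 : ∫ x, w x * conj (w x) ∂μ = ((∫ x, ‖w x‖ ^ 2 ∂μ : ℝ) : ℂ) := by
      rw [← integral_complex_ofReal]
      refine integral_congr_ae (Eventually.of_forall fun x => ?_)
      show w x * conj (w x) = ((‖w x‖ ^ 2 : ℝ) : ℂ)
      rw [Complex.mul_conj, Complex.normSq_eq_norm_sq]
    rw [h3] at h2
    exact_mod_cast h2.symm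
  rw [← h1 hu, ← h1 hv, ← inner_toLp hu hv, ← mul_pow]
  refine pow_le_pow_left₀ (norm_nonneg _) ?_ 2
  rw [mul_comm]
  exact norm_inner_le_norm _ _

theorem int_mul {u v : X → ℂ} (hu : MemLp u 2 μ) (hv : MemLp v 2 μ) :
    Integrable (fun x => u x * conj (v x)) μ := by
  have h := hu.integrable_mul (q := 2) hv.star
  exact h

variable [IsProbabilityMeasure μ]

theorem memLp_mul {u v : X → ℂ} (hu : MemLp u 2 μ) (hv : MemLp v 2 μ) :
    MemLp (fun p : X × X => u p.1 * v p.2) 2 (μ.prod μ) := by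
  have h1 : AEStronglyMeasurable (fun p : X × X => u p.1 * v p.2) (μ.prod μ) :=
    hu.1.comp_fst.mul hv.1.comp_snd
  rw [memLp_two_iff_integrable_sq_norm h1]
  have h2 := ((memLp_two_iff_integrable_sq_norm hu.1).1 hu).mul_prod
    ((memLp_two_iff_integrable_sq_norm hv.1).1 hv)
  refine h2.congr (Eventually.of_forall fun p => ?_)
  show ‖u p.1‖ ^ 2 * ‖v p.2‖ ^ 2 = ‖u p.1 * v p.2‖ ^ 2
  rw [norm_mul, mul_pow]

/-- **Completeness of products.** -/
theorem tot_prod {κ : Type} [Countable κ] {e : κ → X → ℂ} (mem : ∀ a, MemLp (e a) 2 μ)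
    (tot : ∀ g : X → ℂ, MemLp g 2 μ → (∀ a, ∫ x, g x * conj (e a x) ∂μ = 0) → g =ᵐ[μ] 0)
    {g : X × X → ℂ} (hg : MemLp g 2 (μ.prod μ))
    (h : ∀ a b, ∫ p, g p * conj (e a p.1 * e b p.2) ∂(μ.prod μ) = 0) : g =ᵐ[μ.prod μ] 0 := by
  have hg2 := (memLp_two_iff_integrable_sq_norm hg.1).1 hg
  have hsec : ∀ᵐ x ∂μ, MemLp (fun y => g (x, y)) 2 μ := by
    filter_upwards [hg2.prod_right_ae, hg.1.prodMk_left] with x h1 h2
    exact (memLp_two_iff_integrable_sq_norm h2).2 h1
  have hG : ∀ b, (fun x => ∫ y, g (x, y) * conj (e b y) ∂μ) =ᵐ[μ] 0 := by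
    intro b
    have hone : MemLp (fun p : X × X => (1 : ℂ) * e b p.2) 2 (μ.prod μ) :=
      memLp_mul (memLp_const 1) (mem b)
    have i1 : Integrable (fun p : X × X => g p * conj (e b p.2)) (μ.prod μ) := by
      have := int_mul hg hone
      simpa using this
    have m1 : AEStronglyMeasurable (fun x => ∫ y, g (x, y) * conj (e b y) ∂μ) μ :=
      i1.1.integral_prod_right'
    refine tot _ ?_ ?_
    · rw [memLp_two_iff_integrable_sq_norm m1]
      refine Integrable.mono' (hg2.integral_prod_left.mul_const (∫ y, ‖e b y‖ ^ 2 ∂μ))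
        (m1.norm.pow 2) ?_
      filter_upwards [hsec] with x hx
      rw [Real.norm_of_nonneg (sq_nonneg _)]
      exact cs hx (mem b)
    · intro a
      have i2 : Integrable (fun p : X × X => g p * conj (e a p.1 * e b p.2)) (μ.prod μ) :=
        int_mul hg (memLp_mul (mem a) (mem b))
      rw [← h a b, integral_prod _ i2]
      refine integral_congr_ae (Eventually.of_forall fun x => ?_)
      show (∫ y, g (x, y) * conj (e b y) ∂μ) * conj (e a x) =
        ∫ y, g (x, y) * conj (e a x * e b y) ∂μ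
      rw [← integral_mul_const]
      refine integral_congr_ae (Eventually.of_forall fun y => ?_)
      show g (x, y) * conj (e b y) * conj (e a x) = g (x, y) * conj (e a x * e b y)
      rw [map_mul]
      ring
  have hall : ∀ᵐ x ∂μ, ∀ b, ∫ y, g (x, y) * conj (e b y) ∂μ = 0 := by
    rw [ae_all_iff]
    exact hG
  have hz : ∀ᵐ x ∂μ, ∫ y, ‖g (x, y)‖ ^ 2 ∂μ = 0 := by
    filter_upwards [hsec, hall] with x h1 h2
    have h3 := tot _ h1 h2
    rw [← integral_zero X ℝ (μ := μ)]
    refine integral_congr_ae ?_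
    filter_upwards [h3] with y hy
    show ‖g (x, y)‖ ^ 2 = 0
    rw [show g (x, y) = 0 from hy]
    simp
  have hfin : ∫ p, ‖g p‖ ^ 2 ∂(μ.prod μ) = 0 := by
    rw [integral_prod _ hg2, ← integral_zero X ℝ (μ := μ)]
    exact integral_congr_ae hz
  rw [integral_eq_zero_iff_of_nonneg (fun p => sq_nonneg _) hg2] at hfin
  filter_upwards [hfin] with p hp
  have : ‖g p‖ ^ 2 = 0 := hp
  simpa using this

/-! ### the square -/

variable {T : X ≃ᵐ X}

/-- The square `T × T`. -/
abbrev sq (T : X ≃ᵐ X) : (X × X) ≃ᵐ (X × X) := T.prodCongr T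

theorem mp_sq (hT : MeasurePreserving T μ μ) : MeasurePreserving (sq T) (μ.prod μ) (μ.prod μ) :=
  hT.prod hT

theorem iter_sq (T : X ≃ᵐ X) (n : ℕ) (p : X × X) :
    iter (sq T) n p = (iter T n p.1, iter T n p.2) := by
  induction n with
  | zero => rfl
  | succ n ih =>
    show sq T (iter (sq T) n p) = _
    rw [ih]
    rfl

theorem zp_sq (T : X ≃ᵐ X) (n : ℤ) (p : X × X) : zp (sq T) n p = (zp T n p.1, zp T n p.2) := by
  obtain ⟨k, rfl | rfl⟩ := n.eq_nat_or_neg
  · rw [zp_nat, zp_nat, iter_sq]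
  · have e : ∀ {Y : Type} [MeasurableSpace Y] (S : Y ≃ᵐ Y) (y z : Y), iter S k z = y →
        zp S (-(k : ℤ)) y = z := by
      intro Y _ S y z h
      rw [← h, ← zp_nat, ← zp_add, neg_add_cancel, zp_zero]
      rfl
    refine e (sq T) p _ ?_
    rw [iter_sq]
    ext
    · show iter T k (zp T (-(k : ℤ)) p.1) = p.1
      rw [← zp_nat, ← zp_add, add_neg_cancel, zp_zero]
      rfl
    · show iter T k (zp T (-(k : ℤ)) p.2) = p.2
      rw [← zp_nat, ← zp_add, add_neg_cancel, zp_zero]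
      rfl

/-- The basis of `L²(X)`. -/
def ee (T : X ≃ᵐ X) (f : X → ℂ) : Option ℤ → X → ℂ
  | none => fun _ => 1
  | some n => fun x => f (zp T n x)

/-- The representatives of the orbits. -/
def pr : Option (Option ℤ) → Option ℤ × Option ℤ
  | none => (some 0, none)
  | some none => (none, some 0)
  | some (some j) => (some 0, some j)

/-- The shift. -/
def shf (n : ℤ) (a : Option ℤ) : Option ℤ := a.map (· + n)

theorem ee_zp (T : X ≃ᵐ X) (f : X → ℂ) (a : Option ℤ) (n : ℤ) (x : X) :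
    ee T f a (zp T n x) = ee T f (shf n a) x := by
  cases a with
  | none => rfl
  | some m =>
    show f (zp T m (zp T n x)) = f (zp T (m + n) x)
    rw [zp_add]

theorem pr_iff (q q' : Option (Option ℤ)) (m n : ℤ) :
    (shf m (pr q).1 = shf n (pr q').1 ∧ shf m (pr q).2 = shf n (pr q').2) ↔ (q = q' ∧ m = n) := by
  rcases q with _ | _ | j <;> rcases q' with _ | _ | j' <;> simp [shf, pr]
  omega

theorem pr_surj (a b : Option ℤ) (h : ¬ (a = none ∧ b = none)) :
    ∃ q n, shf n (pr q).1 = a ∧ shf n (pr q).2 = b := by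
  rcases a with _ | a <;> rcases b with _ | b
  · exact absurd ⟨rfl, rfl⟩ h
  · exact ⟨some none, b, by simp [shf, pr]⟩
  · exact ⟨none, a, by simp [shf, pr]⟩
  · exact ⟨some (some (b - a)), a, by simp [shf, pr]⟩

/-- **The square has Lebesgue spectrum of multiplicity `∞`.** -/
theorem orbit_sq (hT : MeasurePreserving T μ μ) {f : X → ℂ}
    (h : IsOrbitBasis μ T fun _ : Unit => f) :
    IsOrbitBasis (μ.prod μ) (sq T) fun (q : Option (Option ℤ)) (p : X × X) =>
      ee T f (pr q).1 p.1 * ee T f (pr q).2 p.2 := by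
  classical
  have ho := onb_of hT h
  obtain ⟨h1, h2, h3⟩ := h
  have mem : ∀ a, MemLp (ee T f a) 2 μ := by
    rintro (_ | n)
    · exact memLp_const 1
    · exact ho.mem ((), n)
  have mean : ∀ n, ∫ x, ee T f (some n) x ∂μ = 0 := fun n => ho.mean ((), n)
  have on : ∀ a b, ∫ x, ee T f a x * conj (ee T f b x) ∂μ = if a = b then 1 else 0 := by
    rintro (_ | m) (_ | n)
    · simp [ee]
    · rw [if_neg (by simp)]
      have e : ∫ x, ee T f none x * conj (ee T f (some n) x) ∂μ =
          conj (∫ x, ee T f (some n) x ∂μ) := by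
        rw [← integral_conj]
        simp [ee]
      rw [e, mean, map_zero]
    · rw [if_neg (by simp)]
      have e : ∫ x, ee T f (some m) x * conj (ee T f none x) ∂μ =
          ∫ x, ee T f (some m) x ∂μ := by
        simp [ee]
      rw [e, mean]
    · refine (h2 () () m n).trans ?_
      simp
  have tot : ∀ g : X → ℂ, MemLp g 2 μ → (∀ a, ∫ x, g x * conj (ee T f a x) ∂μ = 0) →
      g =ᵐ[μ] 0 := by
    intro g g1 g2
    refine h3 g g1 ?_ fun _ n => g2 (some n)
    have := g2 none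
    simpa [ee] using this
  have prodint : ∀ a b c d, ∫ p : X × X, (ee T f a p.1 * ee T f b p.2) *
      conj (ee T f c p.1 * ee T f d p.2) ∂(μ.prod μ) = if a = c ∧ b = d then 1 else 0 := by
    intro a b c d
    have e : ∀ p : X × X, (ee T f a p.1 * ee T f b p.2) * conj (ee T f c p.1 * ee T f d p.2) =
        (ee T f a p.1 * conj (ee T f c p.1)) * (ee T f b p.2 * conj (ee T f d p.2)) := by
      intro p
      rw [map_mul]
      ring
    simp_rw [e]
    rw [integral_prod_mul (fun x => ee T f a x * conj (ee T f c x))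
      (fun y => ee T f b y * conj (ee T f d y)), on, on]
    by_cases hc : a = c <;> by_cases hd : b = d <;> simp [hc, hd]
  have ez : ∀ (q : Option (Option ℤ)) (n : ℤ) (p : X × X),
      ee T f (pr q).1 (zp (sq T) n p).1 * ee T f (pr q).2 (zp (sq T) n p).2 =
        ee T f (shf n (pr q).1) p.1 * ee T f (shf n (pr q).2) p.2 := by
    intro q n p
    rw [zp_sq, ee_zp, ee_zp]
  refine ⟨fun q => ⟨memLp_mul (mem _) (mem _), ?_⟩, ?_, ?_⟩
  · have e := prodint (pr q).1 (pr q).2 none none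
    rw [if_neg (by rcases q with _ | _ | j <;> simp [pr])] at e
    simpa [ee] using e
  · intro q q' m n
    have e1 : ∫ p, (ee T f (pr q).1 (zp (sq T) m p).1 * ee T f (pr q).2 (zp (sq T) m p).2) *
        conj (ee T f (pr q').1 (zp (sq T) n p).1 * ee T f (pr q').2 (zp (sq T) n p).2)
          ∂(μ.prod μ) = if q = q' ∧ m = n then 1 else 0 := by
      simp_rw [ez]
      rw [prodint]
      by_cases hc : q = q' ∧ m = n
      · rw [if_pos hc, if_pos ((pr_iff q q' m n).2 hc)]
      · rw [if_neg hc, if_neg fun h' => hc ((pr_iff q q' m n).1 h')]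
    refine e1.trans ?_
    by_cases hc : q = q' ∧ m = n
    · rw [if_pos hc]
      exact (if_pos hc).symm
    · rw [if_neg hc]
      exact (if_neg hc).symm
  · intro g g1 g2 g3
    refine tot_prod mem tot g1 fun a b => ?_
    by_cases hab : a = none ∧ b = none
    · obtain ⟨rfl, rfl⟩ := hab
      simpa [ee] using g2
    · obtain ⟨q, n, hq1, hq2⟩ := pr_surj a b hab
      have h4 : ∫ p, g p * conj (ee T f (pr q).1 (zp (sq T) n p).1 *
          ee T f (pr q).2 (zp (sq T) n p).2) ∂(μ.prod μ) = 0 := g3 q n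
      simp_rw [ez, hq1, hq2] at h4
      exact h4

end prod

end Vale.Agent.P130.H980
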