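import Vale.Agent.P130.H980.Prod

/-!
# P130: the basis function can be chosen real
-/

namespace Vale.Agent.P130.H980

open MeasureTheory Filter Topology
open scoped ENNReal ComplexConjugate BoundedContinuousFunction

/-! ### the circle -/

section circle

local instance : Fact ((0 : ℝ) < 1) := ⟨one_pos⟩

/-- The circle. -/
abbrev Ci : Type := AddCircle (1 : ℝ)

/-- Haar measure of the circle. -/
noncomputable abbrev mc : Measure Ci := AddCircle.haarAddCircle

theorem mul_int {w : Ci → ℝ} (hw : Integrable w mc) (g : C(Ci, ℂ)) :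
    Integrable (fun t => g t * (w t : ℂ)) mc := by
  refine hw.ofReal.bdd_mul g.continuous.aestronglyMeasurable (c := ‖g‖)
    (Eventually.of_forall fun t => g.norm_coe_le_norm t)

theorem int_le {w : Ci → ℝ} (hw : Integrable w mc) (g : C(Ci, ℂ)) :
    ‖∫ t, g t * (w t : ℂ) ∂mc‖ ≤ ‖g‖ * ∫ t, |w t| ∂mc := by
  rw [← integral_const_mul]
  refine norm_integral_le_of_norm_le (hw.abs.const_mul _) (Eventually.of_forall fun t => ?_)
  rw [norm_mul, Complex.norm_real, Real.norm_eq_abs]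
  exact mul_le_mul_of_nonneg_right (g.norm_coe_le_norm t) (abs_nonneg _)

/-- A density with the Fourier coefficients of `1` is `1`. -/
theorem dens_one {w : Ci → ℝ} (hw : Integrable w mc) (h0 : ∀ t, 0 ≤ w t)
    (h : ∀ n : ℤ, ∫ t, fourier n t * (w t : ℂ) ∂mc = ∫ t, (fourier n t : ℂ) ∂mc) :
    ∀ᵐ t ∂mc, w t = 1 := by
  have h1i : Integrable (fun _ : Ci => (1 : ℝ)) mc := integrable_const 1
  have hs : ∀ g ∈ Submodule.span ℂ (Set.range (@fourier (1 : ℝ))),
      ∫ t, g t * (w t : ℂ) ∂mc = ∫ t, g t * ((1 : ℝ) : ℂ) ∂mc := by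
    intro g hg
    induction hg using Submodule.span_induction with
    | mem g hg =>
      obtain ⟨n, rfl⟩ := hg
      simpa using h n
    | zero => simp
    | add g g' _ _ i1 i2 =>
      have e1 : ∀ {u : Ci → ℝ}, Integrable u mc → ∫ t, (g + g') t * (u t : ℂ) ∂mc =
          ∫ t, g t * (u t : ℂ) ∂mc + ∫ t, g' t * (u t : ℂ) ∂mc := by
        intro u hu
        rw [← integral_add (mul_int hu g) (mul_int hu g')]
        refine integral_congr_ae (Eventually.of_forall fun t => ?_)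
        show (g t + g' t) * _ = _
        ring
      rw [e1 hw, i1, i2]
      exact (e1 h1i).symm
    | smul a g _ i1 =>
      have e1 : ∀ {u : Ci → ℝ}, ∫ t, (a • g) t * (u t : ℂ) ∂mc =
          a * ∫ t, g t * (u t : ℂ) ∂mc := by
        intro u
        rw [← integral_const_mul]
        refine integral_congr_ae (Eventually.of_forall fun t => ?_)
        show (a * g t) * _ = _
        ring
      rw [e1, i1]
      exact (e1 (u := fun _ => 1)).symm
  have hall : ∀ g : C(Ci, ℂ), ∫ t, g t * (w t : ℂ) ∂mc = ∫ t, g t * ((1 : ℝ) : ℂ) ∂mc := by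
    intro g
    rw [← sub_eq_zero, ← norm_eq_zero]
    refine le_antisymm (le_of_forall_pos_le_add fun ε hε => ?_) (norm_nonneg _)
    set C := ∫ t, |w t| ∂mc + 1 with hC
    have hC0 : 0 < C := by
      have : 0 ≤ ∫ t, |w t| ∂mc := integral_nonneg fun t => abs_nonneg _
      linarith
    have hg : g ∈ closure (Submodule.span ℂ (Set.range (@fourier (1 : ℝ))) : Set C(Ci, ℂ)) := by
      have : g ∈ (Submodule.span ℂ (Set.range (@fourier (1 : ℝ)))).topologicalClosure := by
        rw [span_fourier_closure_eq_top]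
        trivial
      exact this
    obtain ⟨P, hP, hd⟩ := Metric.mem_closure_iff.1 hg (ε / C) (by positivity)
    rw [dist_eq_norm] at hd
    have e2 : ∀ {u : Ci → ℝ}, Integrable u mc → ∫ t, g t * (u t : ℂ) ∂mc =
        ∫ t, (g - P) t * (u t : ℂ) ∂mc + ∫ t, P t * (u t : ℂ) ∂mc := by
      intro u hu
      rw [← integral_add (mul_int hu (g - P)) (mul_int hu P)]
      refine integral_congr_ae (Eventually.of_forall fun t => ?_)
      show _ = (g t - P t) * (u t : ℂ) + P t * (u t : ℂ)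
      ring
    rw [e2 hw, hs P hP, e2 h1i]
    have e3 : ∀ a b c : ℂ, a + c - (b + c) = a - b := fun a b c => by ring
    rw [e3]
    have k1 := int_le hw (g - P)
    have k2 := int_le h1i (g - P)
    have k3 : ∫ t : Ci, |(1 : ℝ)| ∂mc = 1 := by simp
    rw [k3] at k2
    refine (norm_sub_le _ _).trans ?_
    have k4 : ‖g - P‖ * C ≤ ε := by
      have := mul_le_mul_of_nonneg_right hd.le hC0.le
      rwa [div_mul_cancel₀ _ hC0.ne'] at this
    rw [hC] at k4
    linarith
  -- the measures agree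
  have hfin : IsFiniteMeasure (mc.withDensity fun t => ENNReal.ofReal (w t)) :=
    isFiniteMeasure_withDensity_ofReal hw.2
  have hmeas : AEMeasurable (fun t => ENNReal.ofReal (w t)) mc := hw.1.aemeasurable.ennreal_ofReal
  have heq : mc.withDensity (fun t => ENNReal.ofReal (w t)) = mc := by
    refine ext_of_forall_integral_eq_of_IsFiniteMeasure fun f => ?_
    rw [integral_withDensity_eq_integral_toReal_smul₀ hmeas
      (Eventually.of_forall fun t => ENNReal.ofReal_lt_top)]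
    have h2 := hall ⟨fun t => (f t : ℂ), by fun_prop⟩
    have e4 : ∫ t, ((f t : ℂ)) * (w t : ℂ) ∂mc = ((∫ t, f t * w t ∂mc : ℝ) : ℂ) := by
      rw [← integral_complex_ofReal]
      simp
    have e5 : ∫ t, ((f t : ℂ)) * ((1 : ℝ) : ℂ) ∂mc = ((∫ t, f t ∂mc : ℝ) : ℂ) := by
      rw [← integral_complex_ofReal]
      simp
    have h3 : ((∫ t, f t * w t ∂mc : ℝ) : ℂ) = ((∫ t, f t ∂mc : ℝ) : ℂ) := by
      rw [← e4, ← e5]
      exact h2
    rw [← Complex.ofReal_injective h3]
    refine integral_congr_ae (Eventually.of_forall fun t => ?_)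
    show (ENNReal.ofReal (w t)).toReal • f t = f t * w t
    rw [ENNReal.toReal_ofReal (h0 t), smul_eq_mul, mul_comm]
  have h4 : (fun t => ENNReal.ofReal (w t)) =ᵐ[mc] fun _ => 1 := by
    refine (withDensity_eq_iff_of_sigmaFinite hmeas aemeasurable_const).1 ?_
    rw [heq]
    exact withDensity_one.symm
  filter_upwards [h4] with t ht
  have := congrArg ENNReal.toReal ht
  rwa [ENNReal.toReal_ofReal (h0 t), ENNReal.toReal_one] at this


/-! ### the spectral isomorphism -/

section iso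

variable {X : Type} [MeasurableSpace X] {μ : Measure X} [IsProbabilityMeasure μ] {v : ℤ → X → ℂ}

/-- The mean zero subspace. -/
noncomputable abbrev E0 (μ : Measure X) [IsProbabilityMeasure μ] : Submodule ℂ (Lp ℂ 2 μ) :=
  (Submodule.span ℂ {(mem_one (μ := μ)).toLp _})ᗮ

theorem mem_E0 {u : X → ℂ} (hu : MemLp u 2 μ) : hu.toLp u ∈ E0 μ ↔ ∫ x, u x ∂μ = 0 := by
  rw [Submodule.mem_orthogonal_singleton_iff_inner_right, inner_toLp]
  simp

/-- The vector of a mean zero function. -/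
noncomputable def mk0 {u : X → ℂ} (hu : MemLp u 2 μ) (h0 : ∫ x, u x ∂μ = 0) : E0 μ :=
  ⟨hu.toLp u, (mem_E0 hu).2 h0⟩

theorem inner_mk0 {u w : X → ℂ} (hu : MemLp u 2 μ) (h0 : ∫ x, u x ∂μ = 0) (hw : MemLp w 2 μ)
    (h1 : ∫ x, w x ∂μ = 0) : inner ℂ (mk0 hw h1) (mk0 hu h0) = ∫ x, u x * conj (w x) ∂μ :=
  inner_toLp hu hw

/-- The function of a vector. -/
noncomputable def fn (g : E0 μ) : X → ℂ := ((g : Lp ℂ 2 μ) : X → ℂ)

theorem fn_mem (g : E0 μ) : MemLp (fn g) 2 μ := Lp.memLp _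

theorem fn_mean (g : E0 μ) : ∫ x, fn g x ∂μ = 0 := by
  rw [← mem_E0 (fn_mem g)]
  have : (fn_mem g).toLp (fn g) = (g : Lp ℂ 2 μ) := Lp.toLp_coeFn _ _
  rw [this]
  exact g.2

theorem mk0_fn (g : E0 μ) : mk0 (fn_mem g) (fn_mean g) = g := by
  apply Subtype.ext
  exact Lp.toLp_coeFn _ (fn_mem g)

theorem fn_mk0 {u : X → ℂ} (hu : MemLp u 2 μ) (h0 : ∫ x, u x ∂μ = 0) : fn (mk0 hu h0) =ᵐ[μ] u :=
  hu.coeFn_toLp

theorem mk0_congr {u w : X → ℂ} (hu : MemLp u 2 μ) (h0 : ∫ x, u x ∂μ = 0) (hw : MemLp w 2 μ)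
    (h1 : ∫ x, w x ∂μ = 0) (h : u =ᵐ[μ] w) : mk0 hu h0 = mk0 hw h1 :=
  Subtype.ext (MemLp.toLp_congr hu hw h)

theorem ae_of_mk0 {u w : X → ℂ} {hu : MemLp u 2 μ} {h0 : ∫ x, u x ∂μ = 0} {hw : MemLp w 2 μ}
    {h1 : ∫ x, w x ∂μ = 0} (h : mk0 hu h0 = mk0 hw h1) : u =ᵐ[μ] w := by
  have h2 := fn_mk0 hu h0
  rw [h] at h2
  exact h2.symm.trans (fn_mk0 hw h1)

variable (h : IsOnb μ v)

theorem on0 : Orthonormal ℂ fun n => mk0 (h.mem n) (h.mean n) := by
  classical
  rw [orthonormal_iff_ite]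
  intro i j
  rw [inner_mk0, h.on]
  by_cases hij : i = j
  · rw [if_pos hij, if_pos hij.symm]
  · rw [if_neg hij, if_neg fun h' => hij h'.symm]

theorem tot0 : (Submodule.span ℂ (Set.range fun n => mk0 (h.mem n) (h.mean n)))ᗮ = ⊥ := by
  rw [Submodule.eq_bot_iff]
  intro g hg
  rw [Submodule.mem_orthogonal] at hg
  have h1 : fn g =ᵐ[μ] 0 := by
    refine h.total _ (fn_mem g) (fn_mean g) fun n => ?_
    have := hg (mk0 (h.mem n) (h.mean n)) (Submodule.subset_span ⟨n, rfl⟩)
    rw [← mk0_fn g, inner_mk0] at this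
    exact this
  apply Subtype.ext
  exact (Lp.eq_zero_iff_ae_eq_zero).2 h1

/-- The basis. -/
noncomputable def b0 : HilbertBasis ℤ ℂ (E0 μ) := HilbertBasis.mkOfOrthogonalEqBot (on0 h) (tot0 h)

theorem b0_apply (n : ℤ) : b0 h n = mk0 (h.mem n) (h.mean n) := by
  unfold b0
  rw [HilbertBasis.coe_mkOfOrthogonalEqBot]

/-- The spectral isomorphism. -/
noncomputable def V : Lp ℂ 2 mc ≃ₗᵢ[ℂ] E0 μ := fourierBasis.repr.trans (b0 h).repr.symm

theorem inner_V (φ : Lp ℂ 2 mc) (n : ℤ) :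
    inner ℂ (mk0 (h.mem n) (h.mean n)) (V h φ) = fourierCoeff φ n := by
  rw [← b0_apply h, ← HilbertBasis.repr_apply_apply]
  unfold V
  rw [LinearIsometryEquiv.trans_apply, LinearIsometryEquiv.apply_symm_apply, fourierBasis_repr]

theorem E0_ext {g g' : E0 μ} (hg : ∀ n, inner ℂ (mk0 (h.mem n) (h.mean n)) g =
    inner ℂ (mk0 (h.mem n) (h.mean n)) g') : g = g' := by
  apply (b0 h).repr.injective
  ext n
  rw [HilbertBasis.repr_apply_apply, HilbertBasis.repr_apply_apply, b0_apply h]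
  exact hg n

theorem K_ext {φ ψ : Lp ℂ 2 mc} (hg : ∀ n, fourierCoeff φ n = fourierCoeff ψ n) : φ = ψ := by
  apply fourierBasis.repr.injective
  ext n
  rw [fourierBasis_repr, fourierBasis_repr, hg n]

/-- Multiplication by `w ^ n`. -/
theorem memF (n : ℤ) {φ : Ci → ℂ} (hφ : MemLp φ 2 mc) :
    MemLp (fun t => (fourier n t : ℂ) * φ t) 2 mc := by
  refine MemLp.of_le hφ ((map_continuous (fourier n)).aestronglyMeasurable.mul hφ.1)
    (Eventually.of_forall fun t => ?_)
  have : ‖(fourier n t : ℂ)‖ = 1 := by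
    rw [fourier_apply]
    exact Circle.norm_coe _
  rw [norm_mul, this, one_mul]

theorem fc_mul (n k : ℤ) (φ : Ci → ℂ) :
    fourierCoeff (fun t => (fourier n t : ℂ) * φ t) k = fourierCoeff φ (k - n) := by
  unfold fourierCoeff
  refine integral_congr_ae (Eventually.of_forall fun t => ?_)
  show (fourier (-k) t : ℂ) * ((fourier n t : ℂ) * φ t) = (fourier (-(k - n)) t : ℂ) * φ t
  rw [← mul_assoc, ← fourier_add]
  congr 3
  ring

end iso

/-! ### the real basis function -/

section real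

variable {X : Type} [MeasurableSpace X] {μ : Measure X} {T : X ≃ᵐ X} {f : X → ℂ}

theorem onb1 (hT : MeasurePreserving T μ μ) (h : IsOrbitBasis μ T fun _ : Unit => f) :
    IsOnb μ fun (n : ℤ) x => f (zp T n x) := by
  classical
  obtain ⟨h1, h2, h3⟩ := h
  refine ⟨fun n => (h1 ()).1.comp_measurePreserving (mp_zp hT n), fun n => ?_, ?_, ?_⟩
  · exact (int_zp hT n f).trans (h1 ()).2
  · intro m n
    refine (h2 () () m n).trans ?_
    simp
  · intro g g1 g2 g3
    exact h3 g g1 g2 fun _ n => g3 n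

theorem int_fourier (n : ℤ) : ∫ t, (fourier n t : ℂ) ∂mc = if n = 0 then 1 else 0 := by
  classical
  have h1 := (orthonormal_iff_ite.1 (orthonormal_fourier (T := (1 : ℝ)))) 0 n
  have h2 : inner ℂ (fourierLp (T := (1 : ℝ)) 2 0) (fourierLp 2 n) = ∫ t, (fourier n t : ℂ) ∂mc := by
    rw [L2.inner_def]
    refine integral_congr_ae ?_
    filter_upwards [coeFn_fourierLp (T := (1 : ℝ)) 2 0, coeFn_fourierLp (T := (1 : ℝ)) 2 n]
      with t a1 a2
    rw [a1, a2, RCLike.inner_apply, fourier_zero]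
    simp
  rw [h2] at h1
  rw [h1]
  simp only [eq_comm]

theorem fourier_neg_arg (n : ℤ) (t : Ci) : (fourier n (-t) : ℂ) = fourier (-n) t := by
  rw [fourier_apply, fourier_apply, smul_neg, neg_smul]

variable [IsProbabilityMeasure μ]
variable (hT : MeasurePreserving T μ μ) (h : IsOrbitBasis μ T fun _ : Unit => f)

include hT in
theorem shift_mean (g : E0 μ) (n : ℤ) : ∫ x, fn g (zp T n x) ∂μ = 0 :=
  (int_zp hT n (fn g)).trans (fn_mean g)

theorem V_shift (φ : Lp ℂ 2 mc) (n : ℤ) :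
    V (onb1 hT h) ((memF n (Lp.memLp φ)).toLp _) =
      mk0 ((fn_mem (V (onb1 hT h) φ)).comp_measurePreserving (mp_zp hT n))
        (shift_mean hT _ n) := by
  refine E0_ext (onb1 hT h) fun k => ?_
  refine (inner_V (onb1 hT h) _ k).trans ?_
  rw [fourierCoeff_congr_ae (memF n (Lp.memLp φ)).coeFn_toLp, fc_mul, inner_mk0]
  refine (inner_V (onb1 hT h) φ (k - n)).symm.trans ?_
  have h0 : inner ℂ (mk0 ((onb1 hT h).mem (k - n)) ((onb1 hT h).mean (k - n)))
      (V (onb1 hT h) φ) = ∫ x, fn (V (onb1 hT h) φ) x * conj (f (zp T (k - n) x)) ∂μ := by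
    conv_lhs => rw [← mk0_fn (V (onb1 hT h) φ)]
    exact inner_mk0 _ _ _ _
  rw [h0]
  have h1 := int_zp hT n fun x =>
    fn (V (onb1 hT h) φ) x * conj (f (zp T (k - n) x))
  rw [← h1]
  refine integral_congr_ae (Eventually.of_forall fun x => ?_)
  show fn (V (onb1 hT h) φ) (zp T n x) * conj (f (zp T (k - n) (zp T n x))) =
    fn (V (onb1 hT h) φ) (zp T n x) * conj (f (zp T k x))
  rw [← zp_add, sub_add_cancel]

theorem inner_K {φ ψ : Ci → ℂ} (hφ : MemLp φ 2 mc) (hψ : MemLp ψ 2 mc) :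
    inner ℂ (hψ.toLp ψ) (hφ.toLp φ) = ∫ t, φ t * conj (ψ t) ∂mc := inner_toLp hφ hψ

include hT h in
/-- **The basis function can be chosen real.** -/
theorem exists_real : ∃ F : X → ℝ, MemLp F 2 μ ∧
    IsOrbitBasis μ T fun (_ : Unit) x => ((F x : ℝ) : ℂ) := by
  classical
  set ho := onb1 hT h with hodef
  -- the function `c`
  have hf1 : MemLp f 2 μ := (h.1 ()).1
  have hf0 : ∫ x, f x ∂μ = 0 := (h.1 ()).2
  have hcf : MemLp (fun x => conj (f x)) 2 μ := hf1.star
  have hcf0 : ∫ x, conj (f x) ∂μ = 0 := by rw [integral_conj, hf0, map_zero]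
  set c : Lp ℂ 2 mc := (V ho).symm (mk0 hcf hcf0) with hc
  have hVc : V ho c = mk0 hcf hcf0 := LinearIsometryEquiv.apply_symm_apply _ _
  have hfc : fn (V ho c) =ᵐ[μ] fun x => conj (f x) := by
    rw [hVc]
    exact fn_mk0 hcf hcf0
  have hfcn : ∀ n : ℤ, (fun x => fn (V ho c) (zp T n x)) =ᵐ[μ] fun x => conj (f (zp T n x)) :=
    fun n => (mp_zp hT n).quasiMeasurePreserving.ae_eq_comp hfc
  have hcm : MemLp (c : Ci → ℂ) 2 mc := Lp.memLp c
  have hcc : hcm.toLp (c : Ci → ℂ) = c := Lp.toLp_coeFn _ hcm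
  have hen : ∀ n : ℤ, V ho ((memF n hcm).toLp _) =
      mk0 ((fn_mem (V ho c)).comp_measurePreserving (mp_zp hT n)) (shift_mean hT _ n) :=
    fun n => V_shift hT h c n
  have hconj : ∀ n : ℤ, ∫ x, conj (f (zp T n x)) * f x ∂μ = if n = 0 then 1 else 0 := by
    intro n
    have h2 := h.2.1 () () 0 n
    have e : ∫ x, f (zp T 0 x) * conj (f (zp T n x)) ∂μ = ∫ x, conj (f (zp T n x)) * f x ∂μ := by
      refine integral_congr_ae (Eventually.of_forall fun x => ?_)
      show f (zp T 0 x) * _ = _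
      rw [zp_zero, id, mul_comm]
    rw [← e]
    refine h2.trans ?_
    simp only [true_and, eq_comm]
  -- `|c| = 1`
  have hc1 : ∀ᵐ t ∂mc, ‖(c : Ci → ℂ) t‖ ^ 2 = 1 := by
    refine dens_one ((memLp_two_iff_integrable_sq_norm hcm.1).1 hcm) (fun t => sq_nonneg _)
      fun n => ?_
    rw [int_fourier]
    have e1 : ∫ t, (fourier n t : ℂ) * ((‖(c : Ci → ℂ) t‖ ^ 2 : ℝ) : ℂ) ∂mc =
        inner ℂ (hcm.toLp (c : Ci → ℂ)) ((memF n hcm).toLp _) := by
      rw [inner_K]
      refine integral_congr_ae (Eventually.of_forall fun t => ?_)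
      show (fourier n t : ℂ) * ((‖(c : Ci → ℂ) t‖ ^ 2 : ℝ) : ℂ) =
        (fourier n t : ℂ) * (c : Ci → ℂ) t * conj ((c : Ci → ℂ) t)
      rw [mul_assoc, Complex.mul_conj, Complex.normSq_eq_norm_sq]
    rw [e1, ← (V ho).inner_map_map, hcc, hVc, hen n, inner_mk0, ← hconj n]
    refine integral_congr_ae ?_
    filter_upwards [hfcn n] with x hx
    show fn (V ho c) (zp T n x) * conj (conj (f x)) = _
    rw [show fn (V ho c) (zp T n x) = conj (f (zp T n x)) from hx, RCLike.conj_conj]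
  -- symmetry
  have hsym : ∀ n : ℤ, fourierCoeff (c : Ci → ℂ) n = fourierCoeff (c : Ci → ℂ) (-n) := by
    intro n
    rw [← inner_V ho, ← inner_V ho, hVc, inner_mk0, inner_mk0]
    have h1 := int_zp hT (-n) fun x => conj (f x) * conj (f (zp T n x))
    rw [← h1]
    refine integral_congr_ae (Eventually.of_forall fun x => ?_)
    show conj (f (zp T (-n) x)) * conj (f (zp T n (zp T (-n) x))) =
      conj (f x) * conj (f (zp T (-n) x))
    rw [← zp_add, add_neg_cancel, zp_zero, id, mul_comm]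
  have hneg : MeasurePreserving (fun t : Ci => -t) mc mc := Measure.measurePreserving_neg mc
  have fcneg : ∀ (φ : Ci → ℂ) (n : ℤ), fourierCoeff (fun t => φ (-t)) n = fourierCoeff φ (-n) := by
    intro φ n
    have h1 := hneg.integral_comp (MeasurableEquiv.neg Ci).measurableEmbedding
      fun t => (fourier n t : ℂ) * φ t
    unfold fourierCoeff
    have e1 : ∫ t, (fourier (-n) t : ℂ) • φ (-t) ∂mc =
        ∫ t, (fourier n (-t) : ℂ) * φ (-t) ∂mc := by
      refine integral_congr_ae (Eventually.of_forall fun t => ?_)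
      show (fourier (-n) t : ℂ) • φ (-t) = (fourier n (-t) : ℂ) * φ (-t)
      rw [fourier_neg_arg, smul_eq_mul]
    rw [e1]
    refine h1.trans ?_
    refine integral_congr_ae (Eventually.of_forall fun t => ?_)
    show (fourier n t : ℂ) * φ t = (fourier (- -n) t : ℂ) • φ t
    rw [neg_neg, smul_eq_mul]
  have hcneg : (fun t => (c : Ci → ℂ) (-t)) =ᵐ[mc] (c : Ci → ℂ) := by
    have hm2 : MemLp (fun t => (c : Ci → ℂ) (-t)) 2 mc := hcm.comp_measurePreserving hneg
    have e1 : hm2.toLp _ = c := by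
      refine K_ext fun n => ?_
      rw [fourierCoeff_congr_ae hm2.coeFn_toLp, fcneg, ← hsym n]
    have e2 := hm2.coeFn_toLp
    rw [e1] at e2
    exact e2.symm
  -- the square root
  set s : Ci → ℂ := fun t => Complex.exp (((Complex.arg ((c : Ci → ℂ) t) / 2 : ℝ) : ℂ) * Complex.I)
    with hs
  have hsm : Measurable s := by
    have h1 : Measurable (c : Ci → ℂ) := (Lp.stronglyMeasurable c).measurable
    have h2 : Measurable fun t => Complex.arg ((c : Ci → ℂ) t) := Complex.measurable_arg.comp h1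
    exact Complex.measurable_exp.comp
      (((Complex.measurable_ofReal.comp (h2.div_const 2))).mul_const _)
  have hsn : ∀ t, ‖s t‖ = 1 := fun t => Complex.norm_exp_ofReal_mul_I _
  have hs2 : ∀ᵐ t ∂mc, s t * s t = (c : Ci → ℂ) t := by
    filter_upwards [hc1] with t ht
    have h1 : ‖(c : Ci → ℂ) t‖ = 1 := by
      have := norm_nonneg ((c : Ci → ℂ) t)
      nlinarith
    show Complex.exp _ * Complex.exp _ = _
    rw [← Complex.exp_add]
    have h2 := Complex.norm_mul_exp_arg_mul_I ((c : Ci → ℂ) t)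
    rw [h1, Complex.ofReal_one, one_mul] at h2
    rw [← h2]
    congr 1
    rw [h2]
    push_cast
    ring
  have hsneg : (fun t => s (-t)) =ᵐ[mc] s := by
    filter_upwards [hcneg] with t ht
    show Complex.exp (((Complex.arg ((c : Ci → ℂ) (-t)) / 2 : ℝ) : ℂ) * Complex.I) = _
    rw [show (c : Ci → ℂ) (-t) = (c : Ci → ℂ) t from ht]
  have hsL : MemLp s 2 mc := by
    refine MemLp.of_bound hsm.aestronglyMeasurable 1 (Eventually.of_forall fun t => ?_)
    rw [hsn]
  have hfs : ∀ n, fourierCoeff s (-n) = fourierCoeff s n := by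
    intro n
    rw [← fcneg, fourierCoeff_congr_ae hsneg]
  set S : Lp ℂ 2 mc := hsL.toLp s with hS
  have hSs : (S : Ci → ℂ) =ᵐ[mc] s := hsL.coeFn_toLp
  set F0 : X → ℂ := fn (V ho S) with hF0
  have hF0m : MemLp F0 2 μ := fn_mem _
  have hF00 : ∫ x, F0 x ∂μ = 0 := fn_mean _
  have hmk : mk0 hF0m hF00 = V ho S := mk0_fn _
  have hF0c : MemLp (fun x => conj (F0 x)) 2 μ := hF0m.star
  have hF0c0 : ∫ x, conj (F0 x) ∂μ = 0 := by rw [integral_conj, hF00, map_zero]
  -- `F0` is real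
  have hreal : (fun x => conj (F0 x)) =ᵐ[μ] F0 := by
    refine ae_of_mk0 (hu := hF0c) (h0 := hF0c0) (hw := hF0m) (h1 := hF00) ?_
    refine E0_ext ho fun n => ?_
    rw [hmk]
    refine Eq.trans ?_ (inner_V ho S n).symm
    rw [fourierCoeff_congr_ae hSs, inner_mk0]
    have hvn : MemLp (fun x => conj (f (zp T n x))) 2 μ := (ho.mem n).star
    have hvn0 : ∫ x, conj (f (zp T n x)) ∂μ = 0 := by
      rw [integral_conj, ho.mean n, map_zero]
    have e1 : ∫ x, conj (F0 x) * conj (f (zp T n x)) ∂μ =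
        inner ℂ (mk0 hF0m hF00) (mk0 hvn hvn0) := by
      rw [inner_mk0]
      refine integral_congr_ae (Eventually.of_forall fun x => ?_)
      exact mul_comm _ _
    have e2 : mk0 hvn hvn0 = V ho ((memF n hcm).toLp _) := by
      rw [hen n]
      exact mk0_congr _ _ _ _ (hfcn n).symm
    rw [e1, e2, hmk, (V ho).inner_map_map, hS, inner_K, ← hfs n]
    unfold fourierCoeff
    refine integral_congr_ae ?_
    filter_upwards [hs2] with t ht
    show (fourier n t : ℂ) * (c : Ci → ℂ) t * conj (s t) = (fourier (- -n) t : ℂ) • s t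
    have h3 : s t * conj (s t) = 1 := by
      rw [Complex.mul_conj, Complex.normSq_eq_norm_sq, hsn]
      simp
    rw [← ht, neg_neg, smul_eq_mul]
    calc (fourier n t : ℂ) * (s t * s t) * conj (s t) =
        (fourier n t : ℂ) * s t * (s t * conj (s t)) := by ring
      _ = _ := by rw [h3, mul_one]
  -- the real function
  have hre : (fun x => (((F0 x).re : ℝ) : ℂ)) =ᵐ[μ] F0 := by
    filter_upwards [hreal] with x hx
    exact Complex.conj_eq_iff_re.1 hx
  have hren : ∀ n : ℤ, (fun x => (((F0 (zp T n x)).re : ℝ) : ℂ)) =ᵐ[μ] fun x => F0 (zp T n x) :=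
    fun n => (mp_zp hT n).quasiMeasurePreserving.ae_eq_comp hre
  have hVn : ∀ n : ℤ, V ho ((memF n (Lp.memLp S)).toLp _) =
      mk0 (hF0m.comp_measurePreserving (mp_zp hT n)) (shift_mean hT _ n) :=
    fun n => V_shift hT h S n
  refine ⟨fun x => (F0 x).re, hF0m.re, fun _ => ⟨?_, ?_⟩, ?_, ?_⟩
  · exact (memLp_congr_ae hre).2 hF0m
  · exact (integral_congr_ae hre).trans hF00
  · intro i j m n
    have e1 : ∫ x, (((F0 (zp T m x)).re : ℝ) : ℂ) * conj (((F0 (zp T n x)).re : ℝ) : ℂ) ∂μ =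
        inner ℂ (V ho ((memF n (Lp.memLp S)).toLp _)) (V ho ((memF m (Lp.memLp S)).toLp _)) := by
      rw [hVn, hVn, inner_mk0]
      refine integral_congr_ae ?_
      filter_upwards [hren m, hren n] with x a1 a2
      have a1' : (((F0 (zp T m x)).re : ℝ) : ℂ) = F0 (zp T m x) := a1
      have a2' : (((F0 (zp T n x)).re : ℝ) : ℂ) = F0 (zp T n x) := a2
      rw [a1', a2']
      rfl
    refine e1.trans ?_
    rw [(V ho).inner_map_map, inner_K]
    have e2 : ∫ t, (fourier m t : ℂ) * (S : Ci → ℂ) t * conj ((fourier n t : ℂ) * (S : Ci → ℂ) t)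
        ∂mc = ∫ t, (fourier (m - n) t : ℂ) ∂mc := by
      refine integral_congr_ae ?_
      filter_upwards [hSs] with t ht
      have h3 : s t * conj (s t) = 1 := by
        rw [Complex.mul_conj, Complex.normSq_eq_norm_sq, hsn]
        simp
      rw [ht, map_mul, ← fourier_neg, sub_eq_add_neg, fourier_add]
      calc (fourier m t : ℂ) * s t * ((fourier (-n) t : ℂ) * conj (s t)) =
          (fourier m t : ℂ) * (fourier (-n) t : ℂ) * (s t * conj (s t)) := by ring
        _ = _ := by rw [h3, mul_one]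
    rw [e2, int_fourier]
    by_cases hmn : m = n
    · rw [if_pos (sub_eq_zero.2 hmn)]
      exact (if_pos ⟨rfl, hmn⟩).symm
    · rw [if_neg (fun h' => hmn (sub_eq_zero.1 h'))]
      exact (if_neg fun h' => hmn h'.2).symm
  · intro g g1 g2 g3
    set φ : Lp ℂ 2 mc := (V ho).symm (mk0 g1 g2) with hφ
    have hVφ : V ho φ = mk0 g1 g2 := LinearIsometryEquiv.apply_symm_apply _ _
    have hφm : MemLp (φ : Ci → ℂ) 2 mc := Lp.memLp φ
    have hφφ : hφm.toLp (φ : Ci → ℂ) = φ := Lp.toLp_coeFn _ hφm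
    have hz : ∀ n : ℤ, fourierCoeff (fun t => conj (s t) * (φ : Ci → ℂ) t) n = 0 := by
      intro n
      have e1 : inner ℂ (V ho ((memF n (Lp.memLp S)).toLp _)) (V ho φ) = 0 := by
        rw [hVn, hVφ, inner_mk0]
        refine (integral_congr_ae ?_).trans (g3 () n)
        filter_upwards [hren n] with x a1
        have a1' : (((F0 (zp T n x)).re : ℝ) : ℂ) = F0 (zp T n x) := a1
        show g x * conj (F0 (zp T n x)) = g x * conj (((F0 (zp T n x)).re : ℝ) : ℂ)
        rw [a1']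
      rw [(V ho).inner_map_map, ← hφφ, inner_K] at e1
      rw [← e1]
      unfold fourierCoeff
      refine integral_congr_ae ?_
      filter_upwards [hSs] with t ht
      show (fourier (-n) t : ℂ) • (conj (s t) * (φ : Ci → ℂ) t) =
        (φ : Ci → ℂ) t * conj ((fourier n t : ℂ) * (S : Ci → ℂ) t)
      rw [ht, map_mul, ← fourier_neg, smul_eq_mul]
      ring
    have hm3 : MemLp (fun t => conj (s t) * (φ : Ci → ℂ) t) 2 mc := by
      refine hφm.of_le (hsL.star.1.mul hφm.1) (Eventually.of_forall fun t => ?_)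
      show ‖conj (s t) * (φ : Ci → ℂ) t‖ ≤ _
      rw [norm_mul, RCLike.norm_conj, hsn, one_mul]
    have e3 : hm3.toLp _ = 0 := by
      refine K_ext fun n => ?_
      rw [fourierCoeff_congr_ae hm3.coeFn_toLp, hz n]
      have : fourierCoeff (((0 : Lp ℂ 2 mc)) : Ci → ℂ) n = 0 := by
        rw [← fourierBasis_repr]
        simp
      exact this.symm
    have e4 : (φ : Ci → ℂ) =ᵐ[mc] 0 := by
      have h5 := (Lp.eq_zero_iff_ae_eq_zero).1 e3
      filter_upwards [h5, hm3.coeFn_toLp] with t a1 a2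
      have a3 : conj (s t) * (φ : Ci → ℂ) t = 0 := a2.symm.trans a1
      have h3 : s t * conj (s t) = 1 := by
        rw [Complex.mul_conj, Complex.normSq_eq_norm_sq, hsn]
        simp
      calc (φ : Ci → ℂ) t = (s t * conj (s t)) * (φ : Ci → ℂ) t := by rw [h3, one_mul]
        _ = s t * (conj (s t) * (φ : Ci → ℂ) t) := by ring
        _ = 0 := by rw [a3, mul_zero]
    have e5 : φ = 0 := (Lp.eq_zero_iff_ae_eq_zero).2 e4
    have e6 : mk0 g1 g2 = 0 := by rw [← hVφ, e5, map_zero]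
    have e7 := fn_mk0 g1 g2
    rw [e6] at e7
    refine e7.symm.trans ?_
    exact Lp.coeFn_zero _ _ _

end real

end circle

end Vale.Agent.P130.H980
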